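import Crest.Agent.N49.Rm.Defs
import Crest.Agent.N49.Ir.Ty

/-!
# Row 49 (helper2): the universal clone system of a typed tower; `irr` small implies `Good`
-/

set_option autoImplicit false
set_option linter.unusedSectionVars false

open Finset Matrix

noncomputable section

namespace Crest.Agent.N49.Gd

open Rm Ir

section abstract
variable {L V : Type} [DecidableEq L] [Fintype V] [DecidableEq V]

/-- narrow the letter `i` by the factor `la i` -/
def nar (ty : V → Finset L) (la : L → ℝ) (Φ : (V → ℝ) → V → ℝ) (y : V → ℝ) (v : V) : ℝ :=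
  (∏ i ∈ ty v, la i) * Φ y v

/-- a non-degenerate typed system -/
def Nd (ty : V → Finset L) (Φ : (V → ℝ) → V → ℝ) : Prop := Ir.Ty ty Φ ∧ (lp Φ).det ≠ 0

/-- the pure words of the letter `x` -/
abbrev Pu (ty : V → Finset L) (x : L) : Type := {v // ty v = {x}}
/-- the other words -/
abbrev Np (ty : V → Finset L) (x : L) : Type := {v // ty v ≠ {x}}
/-- join -/
def jp {α : Type} {ty : V → Finset L} {x : L} (z : Pu ty x → α) (y : Np ty x → α) : V → α :=
  fun v => if h : ty v = {x} then z ⟨v, h⟩ else y ⟨v, h⟩
/-- the system of the pure words -/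
def pu (ty : V → Finset L) (x : L) (Φ : (V → ℝ) → V → ℝ) (z : Pu ty x → ℝ) (v : Pu ty x) : ℝ :=
  Φ (jp z 0) v
/-- the letter `x` becomes background with pure words `z` -/
def fx (ty : V → Finset L) (x : L) (Φ : (V → ℝ) → V → ℝ) (z : Pu ty x → ℤ) (y : Np ty x → ℝ)
    (v : Np ty x) : ℝ := Φ (jp (Po.zc z) y) v
/-- probability -/
def pb (Φ : (V → ℝ) → V → ℝ) (H : Set (V → ℤ)) : ℝ := (∑' y, H.indicator (wt Φ) y) / ZZ Φ

end abstract

variable {L C L' : Type} [Fintype L] [DecidableEq L] [Fintype C] [DecidableEq C] [Fintype L']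
  [DecidableEq L']

/-- no offsets: the errors do not depend on the homogenising coordinates -/
def Hm (T : TT L C) : Prop := ∀ p p', (∀ c, p (.inl c) = p' (.inl c)) → T.Φ p = T.Φ p'

/-- `B` is a transversal of the nonempty type `S` -/
def Tv (o : L' → Option L) (S : Finset L) (B : Finset L') : Prop :=
  S.Nonempty ∧ B.image o = S.image some ∧ #B = #S

instance (o : L' → Option L) (S : Finset L) (B : Finset L') : Decidable (Tv o S B) := by
  unfold Tv; infer_instance

/-- the part of `B` over `S` -/
def rs (o : L' → Option L) (S : Finset L) (B : Finset L') : Finset L' :=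
  B.filter fun x => o x ∈ S.image some

variable (T : TT L C)

/-- cloned words -/
abbrev UC (o : L' → Option L) : Type := {w : C × Finset L' // Tv o (T.ty w.1) w.2}
/-- their types -/
def uty (o : L' → Option L) (w : UC T o) : Finset L' := w.1.2
/-- the configuration seen from the transversal `B` -/
def pull (o : L' → Option L) (B : Finset L') (y : UC T o → ℝ) : C ⊕ L → ℝ :=
  Sum.elim (fun c => if h : Tv o (T.ty c) (rs o (T.ty c) B) then y ⟨(c, _), h⟩ else 0) fun _ => 1
/-- the universal clone system -/
def U (o : L' → Option L) (y : UC T o → ℝ) (w : UC T o) : ℝ := T.Φ (pull T o w.1.2 y) w.1.1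
/-- its irregularity with the widths `1 / la` -/
def ir (o : L' → Option L) (la : L' → ℝ) : ℝ := irr (nar (uty T o) la (U T o))
/-- the number of active letters -/
def act (o : L' → Option L) : ℕ := #{x | o x ≠ none}

/-- live coordinates -/
abbrev Lv : Type := {c // (T.ty c).Nonempty}
/-- the live part of the tower -/
def lv (y : Lv T → ℝ) (c : Lv T) : ℝ :=
  T.Φ (Sum.elim (fun c => if h : (T.ty c).Nonempty then y ⟨c, h⟩ else 0) fun _ => 1) c

/-- **the invariant** -/
def Inv (N n : ℕ) (t τ : ℝ) : Prop :=
  T.Ok ∧ Hm T ∧ ∀ o : Fin N → Option L, act o ≤ n → ir T o (fun _ => t) ≤ 1 + τ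

end Crest.Agent.N49.Gd

end
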