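import Crest.Agent.N49.Gd.St

/-!
# Row 49 (helper10): relabelling invariance of `irr` and `pb`
-/

set_option autoImplicit false

open Finset Matrix

noncomputable section

namespace Crest.Agent.N49.Gd

open Rm Ir

theorem i1 : I1 := by
  intro V V' _ _ _ _ Φ Φ' f hf h
  let e : V' ≃ V := Equiv.ofBijective f hf
  let E : (V → ℤ) ≃ (V' → ℤ) := Equiv.arrowCongr e.symm (Equiv.refl ℤ)
  have hE : ∀ y, E y = y ∘ f := fun y => rfl
  have hw : ∀ y : V → ℤ, wt Φ' (y ∘ f) = wt Φ y := fun y => by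
    have a : Φ' (Po.zc (y ∘ f)) = fun v => Φ (Po.zc y) (e v) := funext fun v => h (Po.zc y) v
    unfold wt Po.gs
    rw [a, qf_one, qf_one]
    exact congrArg (fun t => Real.exp (-(Real.pi * t))) (e.sum_comp fun v => Φ (Po.zc y) v ^ 2)
  have hZ : ZZ Φ' = ZZ Φ := by
    unfold ZZ
    rw [← E.tsum_eq]
    exact tsum_congr hw
  have hl : lp Φ' = (lp Φ).submatrix e e := by
    ext v c
    have a : (Pi.single c 1 : V' → ℝ) = (Pi.single (f c) 1 : V → ℝ) ∘ f := funext fun x => by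
      simp [Pi.single_apply, hf.1.eq_iff]
    show Φ' (Pi.single c 1) v = Φ (Pi.single (f c) 1) (f v)
    rw [a, h]
  have hd : (lp Φ').det = (lp Φ).det := by rw [hl, det_submatrix_equiv_self]
  refine ⟨by rw [irr, irr, hZ, hd], hd, fun H => ?_⟩
  unfold pb
  rw [hZ, ← E.tsum_eq]
  congr 1
  refine tsum_congr fun y => ?_
  rw [hE]
  by_cases k : y ∘ f ∈ H
  · rw [Set.indicator_of_mem k, Set.indicator_of_mem (show y ∈ {y | y ∘ f ∈ H} from k), hw]
  · rw [Set.indicator_of_notMem k, Set.indicator_of_notMem (show y ∉ {y | y ∘ f ∈ H} from k)]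

end Crest.Agent.N49.Gd

end
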