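import Crest.Agent.N49.Gd.I2

/-!
# Row 49 (helper89): the leaf `I5` (short dual vectors of the fibres are rare)
-/

set_option autoImplicit false

open Matrix

noncomputable section

namespace Crest.Agent.N49.Gd

open Ir Po

theorem exp_pi_le' : Real.exp (Real.pi * 1) / 2 ≤ 12 := by
  have a : Real.exp (Real.pi * 1) ≤ Real.exp 1 ^ 3 * Real.exp 0.15 := by
    rw [← Real.exp_nat_mul, ← Real.exp_add]
    exact Real.exp_le_exp.2 (by have := Real.pi_lt_d2; push_cast; linarith)
  have b := pow_le_pow_left₀ (Real.exp_pos 1).le Real.exp_one_lt_d9.le 3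
  have c := Real.exp_bound_div_one_sub_of_interval (x := 0.15) (by norm_num) (by norm_num)
  have d := mul_le_mul b c (Real.exp_pos _).le (by norm_num)
  have e : (2.7182818286 : ℝ) ^ 3 * (1 / (1 - 0.15)) ≤ 24 := by norm_num
  linarith

theorem i5 : I5 := by
  intro L V _ _ _ ty Φ ⟨h, hd⟩ i t ht H hg
  obtain ⟨τ, e⟩ : ∃ τ, τ = irr (nar ty (fun _ => t) Φ) - 1 := ⟨_, rfl⟩
  have hτ : irr (Ir.nar ty (fun j => if j = i then t else 1) Φ) ≤ 1 + τ :=
    (h.nar_mono hd (b := fun _ => t) (fun j => by split_ifs <;> positivity) fun j => by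
      split_ifs <;> simp [ht]).trans_eq (by rw [e]; exact (add_sub_cancel _ _).symm)
  rw [← e]
  have hd' := det_nar_ne (ty := ty) hd (lam := fun j => if j = i then t else 1) fun j => by
    split_ifs <;> positivity
  have t0 : 0 ≤ τ := by linarith [((h.nar _).one_le hd').trans hτ]
  have z := (h.tdel i).ZZ_pos (h.det_del hd i)
  have a : ∑' r, wt (del ty Φ i) r * H.indicator 1 r ≤ 12 * τ * ZZ (del ty Φ i) := by
    have b := ((h.nar _).fb hd' i).bad 1 (ind_nn H) (ind_le H) fun r m => by
      refine Set.indicator_of_notMem (fun n => ?_) _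
      obtain ⟨k, k0, hk⟩ := hg r n
      refine (m k k0).not_ge (short ((h.nar _).det_fm_ne hd' _) fun u hu => ?_)
      have := hk (t • u) fun v => by
        rw [h.inn, mulVec_smul, ← smul_mulVec, ← fm_nar]
        exact hu v
      rw [dotProduct_smul, smul_eq_mul, abs_mul, abs_of_pos (by positivity : 0 < t)] at this
      exact le_of_mul_le_mul_left (this.trans_eq (mul_one t).symm) (by positivity)
    have c := (h.nar _).ex_le hd' i hτ
    rw [del_nar] at b c
    rw [mul_assoc]
    exact b.trans ((mul_le_mul_of_nonneg_left c (by positivity)).trans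
      (mul_le_mul_of_nonneg_right exp_pi_le' (by positivity)))
  simp only [pb, ind_eq _ (wt _)]
  refine ⟨(div_le_iff₀ z).2 (a.trans (by nlinarith)), (div_le_iff₀ (h.ZZ_pos hd)).2 ?_⟩
  have F := h.fb hd i
  have b := (abs_le.1 (F.marg 0 (f := H.indicator 1) fun r =>
    abs_le.2 ⟨by linarith [ind_nn H r], ind_le H r⟩)).2
  have c := h.ex_le hd i ((h.le_nar1 hd i ht).trans hτ)
  have e : ∀ (r : Out ty i → ℤ) (u : In ty i → ℤ), jn r u ∘ Subtype.val = r :=
    fun r u => funext fun v => jn_out r u v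
  have d := F.le
  change ∑' y, wt Φ y * H.indicator 1 (y ∘ Subtype.val) ≤ _
  rw [h.tsum_jn i fun a y => a * H.indicator 1 (y ∘ Subtype.val), ZZ, h.tsum_jn i fun a _ => a,
    F.tsum_zero]
  simp only [Pi.zero_apply, sub_zero] at b
  simp only [e]
  have p : 0 ≤ |(fm Φ (0 : Out ty i → ℝ)).det|⁻¹ := by positivity
  change ZZ (del ty Φ i) ≤ _ at d
  nlinarith [mul_le_mul_of_nonneg_left a p, mul_le_mul_of_nonneg_left c p,
    mul_le_mul_of_nonneg_left d (mul_nonneg p t0)]

end Crest.Agent.N49.Gd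

end
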