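import Crest.Agent.N49.Gd.St
import Crest.Agent.N49.Rm.Pr

/-!
# Row 49 (helper10): the dead coordinates are independent noise
-/

set_option autoImplicit false

open Finset Matrix

noncomputable section

namespace Crest.Agent.N49.Gd

open Rm Ir

theorem pr : PR := by
  intro L C _ _ _ _ T h H
  let E := (Equiv.piEquivPiSubtypeProd (fun c => (T.ty c).Nonempty) fun _ => ℤ).symm
  let g : ({c // ¬ (T.ty c).Nonempty} → ℤ) → ℝ := fun b => Po.gs 1 (Po.zc b)
  have hw : ∀ p, T.wt (E p) = wt (lv T) p.1 * g p.2 := fun p => by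
    have a : ∀ c : Lv T, T.Φ (TT.cf (E p)) c = lv T (Po.zc p.1) c := fun c =>
      (h.dat c c.2).1 _ _ fun v _ hv => by
        rcases v with c' | ℓ
        · have hv' : (T.ty c').Nonempty := hv
          simp [TT.cf, E, Equiv.piEquivPiSubtypeProd, hv', Po.zc]
        · rfl
    have b : ∀ c : {c // ¬ (T.ty c).Nonempty}, T.Φ (TT.cf (E p)) c = Po.zc p.2 c := fun c => by
      rw [h.dead c _ (Finset.not_nonempty_iff_eq_empty.1 c.2)]
      simp [TT.cf, E, Equiv.piEquivPiSubtypeProd, c.2, Po.zc]
    simp only [TT.wt, wt, g, Po.gs, qf_one]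
    rw [← Real.exp_add, ← Fintype.sum_subtype_add_sum_subtype fun c => (T.ty c).Nonempty]
    simp only [a, b]
    congr 1
    ring
  have s : Summable fun p => T.wt (E p) := E.summable_iff.2 h.summable
  have sg : Summable g := by
    have a := s.prod_factor 0
    simp only [hw] at a
    exact (summable_mul_left_iff (wt_pos _ _).ne').1 a
  have gp : 0 < ∑' b, g b := sg.tsum_pos (fun b => (Po.gs_pos _ _).le) 0 (Po.gs_pos _ _)
  have k : ∀ H : Set (Lv T → ℤ), ∑' y, {y : C → ℤ | (fun c : Lv T => y c.1) ∈ H}.indicator T.wt y =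
      (∑' y, H.indicator (wt (lv T)) y) * ∑' b, g b := fun H => by
    have e : ∀ p, {y : C → ℤ | (fun c : Lv T => y c.1) ∈ H}.indicator T.wt (E p) =
        H.indicator (wt (lv T)) p.1 * g p.2 := fun p => by
      have a : (fun c : Lv T => E p c.1) = p.1 := funext fun c => by
        simp [E, Equiv.piEquivPiSubtypeProd, c.2]
      by_cases m : p.1 ∈ H
      · rw [Set.indicator_of_mem m, Set.indicator_of_mem (by simpa [a] using m), hw]
      · rw [Set.indicator_of_notMem m, Set.indicator_of_notMem (by simpa [a] using m), zero_mul]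
    have s' : Summable fun p => {y : C → ℤ | (fun c : Lv T => y c.1) ∈ H}.indicator T.wt (E p) :=
      (E.summable_iff (f := {y : C → ℤ | (fun c : Lv T => y c.1) ∈ H}.indicator T.wt)).2
        (h.summable.indicator _)
    rw [← E.tsum_eq, s'.tsum_prod]
    simp only [e, tsum_mul_left, tsum_mul_right]
  have k1 := k Set.univ
  simp only [Set.mem_univ, Set.ofPred_true, Set.indicator_univ] at k1
  unfold TT.pr pb ZZ
  rw [k, k1, mul_div_mul_right _ _ gp.ne']

end Crest.Agent.N49.Gd

end
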