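import Crest.Agent.N49.Gd.St
import Crest.Agent.N49.Rm.Pr

/-!
# Row 49 (helper82): the leaf `SMI` (smooth fibres from small irregularity)
-/

set_option autoImplicit false
set_option linter.unusedSectionVars false

open Finset Matrix

noncomputable section

namespace Crest.Agent.N49.Gd

open Rm Ir

variable {L C : Type} [Fintype L] [DecidableEq L] [Fintype C] [DecidableEq C] {T : TT L C}

theorem smi_ty {ℓ : L} {c : C} (h : ℓ ∉ T.ty c) : (T.del ℓ).ty c = T.ty c := if_neg h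

theorem smi_ty' {ℓ : L} {c : C} (h : ℓ ∈ T.ty c) : (T.del ℓ).ty c = ∅ := if_pos h

theorem smi_tv {ℓ : L} {c : C} (h : ℓ ∉ T.ty c) {v : C ⊕ L} (b : T.tv v ⊆ T.ty c) :
    (T.del ℓ).tv v = T.tv v := by
  cases v with
  | inl d => exact smi_ty fun k => h (b k)
  | inr m => rfl

theorem smi_sub (ℓ : L) (v : C ⊕ L) : (T.del ℓ).tv v ⊆ T.tv v := by
  cases v with
  | inl d =>
    by_cases k : ℓ ∈ T.ty d
    · exact (smi_ty' k).le.trans (empty_subset _)
    · exact (smi_ty k).le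
  | inr m => exact Subset.refl _

theorem smi_ok (h : T.Ok) (ℓ : L) : (T.del ℓ).Ok := by
  refine ⟨fun c ne => ?_, fun c p e => ?_, fun S p p' e a b => ?_⟩
  · have k : ℓ ∉ T.ty c := fun k => by rw [smi_ty' k] at ne; exact not_nonempty_empty ne
    rw [smi_ty k] at ne ⊢
    have e : (fun p => (T.del ℓ).Φ p c) = fun p => T.Φ p c := funext fun p => if_neg k
    rw [e]
    refine ⟨fun p p' a => (h.dat c ne).1 _ _ fun v b n => a v ?_ ?_, fun j hj a b p p' m => ?_⟩
    · rwa [smi_tv k b]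
    · rwa [smi_tv k b]
    · rw [← (h.dat c ne).2 j hj a b p p' fun v n => m v fun x => n (smi_sub ℓ v x)]
      refine (h.dat c ne).1 _ _ fun v b _ => ?_
      simp only [TT.cmb, smi_tv k b]
  · by_cases k : ℓ ∈ T.ty c
    · exact if_pos k
    · rw [smi_ty k] at e
      exact (if_neg k).trans (h.dead c p e)
  · rcases S.eq_empty_or_nonempty with rfl | ne
    · funext v
      cases v with
      | inr m => exact e m
      | inl c =>
        by_cases x : (T.del ℓ).ty c = ∅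
        · have := b c x
          by_cases k : ℓ ∈ T.ty c
          · exact ((if_pos k).symm.trans this).trans (if_pos k)
          · rw [smi_ty k] at x
            rw [← h.dead c p x, ← h.dead c p' x]
            exact ((if_neg k).symm.trans this).trans (if_neg k)
        · exact a c x
    by_cases l : ℓ ∈ S
    · funext v
      cases v with
      | inr m => exact e m
      | inl c =>
        refine a c fun x => ?_
        by_cases k : ℓ ∈ T.ty c
        · exact ne.ne_empty (x.symm.trans (smi_ty' k))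
        · exact k (by rw [← smi_ty k, x]; exact l)
    · refine h.inj S p p' e (fun c x => a c fun y => ?_) fun c x => ?_
      · by_cases k : ℓ ∈ T.ty c
        · exact ne.ne_empty (y.symm.trans (smi_ty' k))
        · exact x ((smi_ty k).symm.trans y)
      · have k : ℓ ∉ T.ty c := x ▸ l
        exact ((if_neg k).symm.trans (b c ((smi_ty k).trans x))).trans (if_neg k)

variable (T) in
/-- a point of the fibre of `ℓ` over `y` -/
def fp (ℓ : L) (y : C → ℤ) (u : In (fun c : Lv T => T.ty c) ℓ → ℝ) : C ⊕ L → ℝ :=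
  Sum.elim (fun c => if h : ℓ ∈ T.ty c then u ⟨⟨c, ℓ, h⟩, h⟩ else y c)
    fun m => if m = ℓ then 0 else 1

theorem fp_fib (ℓ : L) (y : C → ℤ) (u : In (fun c : Lv T => T.ty c) ℓ → ℝ) :
    fp T ℓ y u ∈ T.Fib {ℓ} y :=
  ⟨fun c a => dif_neg (by simpa using a), fun m => by simp [fp]⟩

theorem fp_eq {ℓ : L} {y : C → ℤ} {p : C ⊕ L → ℝ} (a : p ∈ T.Fib {ℓ} y) :
    p = fp T ℓ y fun v => p (.inl v.1.1) := by
  funext v
  cases v with
  | inl c =>
    by_cases k : ℓ ∈ T.ty c
    · simp [fp, k]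
    · simpa [fp, k] using a.1 c (by simpa using k)
  | inr m => rw [a.2]; simp [fp]

theorem fp_lin {ℓ : L} {F : Fm L C} (h : T.Lin ℓ F) (y : C → ℤ) :
    IsLinearMap ℝ fun u => F (fp T ℓ y u) := by
  have e : ∀ (a b : ℝ) u u', F (fp T ℓ y (a • u + b • u')) =
      a * F (fp T ℓ y u) + b * F (fp T ℓ y u') := fun a b u u' => by
    rw [← h a b _ _ fun v k => ?_]
    · congr 1
      funext v
      cases v with
      | inl c => by_cases k : ℓ ∈ T.ty c <;> simp [fp, TT.cmb, TT.tv, k]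
      | inr m =>
        by_cases k : m = ℓ
        · simp [fp, TT.cmb, TT.tv, k]
        · simp [fp, TT.cmb, TT.tv, k, Ne.symm k]
    · cases v with
      | inl c =>
        have k' : ℓ ∉ T.ty c := k
        simp [fp, k']
      | inr m => rfl
  exact ⟨fun u u' => by simpa using e 1 1 u u', fun a u => by simpa using e a 0 u u⟩

theorem fp_sum {ℓ : L} {F : Fm L C} (h : T.Lin ℓ F) (y : C → ℤ)
    (u : In (fun c : Lv T => T.ty c) ℓ → ℝ) :
    F (fp T ℓ y u) = ∑ v, F (fp T ℓ y (Pi.single v 1)) * u v := by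
  have a := (IsLinearMap.mk' _ (fp_lin h y)).pi_apply_eq_sum_univ u
  simp only [IsLinearMap.mk'_apply, smul_eq_mul] at a
  rw [a]
  refine sum_congr rfl fun c _ => ?_
  rw [mul_comm]
  congr 3
  funext c'
  simp [Pi.single_apply, eq_comm]

/-- failure of uniqueness gives a short dual vector of the fibre -/
theorem smi_vec (h : T.Ok) (hm : Hm T) {ℓ : L} {y : C → ℤ} {t : ℝ} (a : ¬ T.UQ univ {ℓ} y t) :
    ∃ k : In (fun c : Lv T => T.ty c) ℓ → ℤ, k ≠ 0 ∧ ∀ u : In (fun c : Lv T => T.ty c) ℓ → ℝ,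
      (∀ v : In (fun c : Lv T => T.ty c) ℓ, |lv T (jn (Po.zc fun w => y w.1.1) u) v| ≤ 1) →
        |Po.zc k ⬝ᵥ u| ≤ t := by
  simp only [TT.UQ, not_forall] at a
  obtain ⟨I, hI, s, p, hp, ne⟩ := a
  have l := hI.1.2 ℓ (mem_singleton_self _)
  have i : ∀ v, ∃ n : ℤ, I (fp T ℓ y (Pi.single v 1)) = n := fun v =>
    hI.2 _ (fp_fib _ _ _) fun w => by
      cases w with
      | inl c =>
        by_cases k : ℓ ∈ T.ty c
        · refine ⟨(Pi.single v 1 : _ → ℤ) ⟨⟨c, ℓ, k⟩, k⟩, ?_⟩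
          simp only [fp, Sum.elim_inl, dif_pos k, Pi.single_apply]
          split_ifs <;> simp
        · exact ⟨y c, dif_neg k⟩
      | inr m => exact ⟨if m = ℓ then 0 else 1, by simp [fp]⟩
  choose k hk using i
  have e : ∀ u, I (fp T ℓ y u) = Po.zc k ⬝ᵥ u := fun u => by
    rw [fp_sum l]
    exact sum_congr rfl fun v _ => by rw [hk]; rfl
  refine ⟨k, fun k0 => ne ?_, fun u b => ?_⟩
  · rw [fp_eq hp, e, k0]
    simp [Po.zc, dotProduct]
  rw [← e]
  refine s _ (fp_fib _ _ _) fun c _ n => ?_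
  have m : ℓ ∈ T.ty c := by simpa using n
  refine le_of_eq_of_le (congrArg _ ?_) (b ⟨⟨c, ℓ, m⟩, m⟩)
  rw [hm (fp T ℓ y u) (Sum.elim (fun d => fp T ℓ y u (.inl d)) fun _ => 1) fun _ => rfl]
  refine (h.dat c ⟨ℓ, m⟩).1 _ _ fun v _ ne => ?_
  cases v with
  | inl d =>
    have ne' : (T.ty d).Nonempty := ne
    by_cases x : ℓ ∈ T.ty d <;> simp [fp, jn, ne', x, Po.zc]
  | inr m => rfl

variable (T) in
/-- the live words of the deleted tower -/
def df (ℓ : L) (v : Out (fun c : Lv T => T.ty c) ℓ) : Lv (T.del ℓ) :=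
  ⟨v.1.1, by rw [smi_ty v.2]; exact v.1.2⟩

theorem df_bij (ℓ : L) : Function.Bijective (df T ℓ) := by
  refine ⟨fun v v' e => Subtype.ext (Subtype.ext (congrArg (fun c : Lv (T.del ℓ) => c.1) e)),
    fun c => ?_⟩
  have ne := c.2
  have k : ℓ ∉ T.ty c := fun k => by rw [smi_ty' k] at ne; exact not_nonempty_empty ne
  rw [smi_ty k] at ne
  exact ⟨⟨⟨c, ne⟩, k⟩, rfl⟩

theorem df_phi (ℓ : L) (y : Lv (T.del ℓ) → ℝ) (v : Out (fun c : Lv T => T.ty c) ℓ) :
    del (fun c : Lv T => T.ty c) (lv T) ℓ (y ∘ df T ℓ) v = lv (T.del ℓ) y (df T ℓ v) := by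
  refine Eq.trans (congrArg (T.Φ · v.1.1) ?_) (if_neg v.2).symm
  funext w
  cases w with
  | inr m => rfl
  | inl c =>
    by_cases k : ℓ ∈ T.ty c
    · have n : ¬ ((T.del ℓ).ty c).Nonempty := by rw [smi_ty' k]; exact not_nonempty_empty
      have n' : (T.ty c).Nonempty := ⟨ℓ, k⟩
      simp [jn, k, n, n']
    · by_cases n' : (T.ty c).Nonempty
      · have n : ((T.del ℓ).ty c).Nonempty := by rwa [smi_ty k]
        simp [jn, k, n, n', df]
      · have n : ¬ ((T.del ℓ).ty c).Nonempty := by rwa [smi_ty k]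
        simp [n, n']

theorem smi (pr : PR) (i1 : I1) (i5 : I5) (u1 : U1) : SMI := by
  intro L C _ _ _ _ T h hm b a ℓ
  obtain ⟨b1, b2⟩ := i5 L (Lv T) _ (lv T) (u1 L C L T h hm).2 ℓ (2 ^ b)
    (one_le_pow₀ one_le_two) _ fun r hr => hr
  constructor
  · refine le_trans ?_ (b2.trans a)
    rw [← pr L C T h]
    exact h.pr_mono fun y hy => smi_vec h hm hy
  · refine le_trans ?_ (b1.trans a)
    rw [(i1 _ _ _ _ _ (df_bij ℓ) (df_phi ℓ)).2.2, ← pr L C _ (smi_ok h ℓ)]
    exact (smi_ok h ℓ).pr_mono fun y hy => smi_vec h hm hy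

end Crest.Agent.N49.Gd

end
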