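import Crest.Agent.N49.Gd.St
import Crest.Agent.N49.Bq.Alg

/-!
# Row 49 (helper73): transversals; the clone system is a non-degenerate typed system
-/

set_option autoImplicit false
set_option linter.unusedSectionVars false

open Finset Matrix

noncomputable section

namespace Crest.Agent.N49.Gd

open Rm Ir

variable {L C L' : Type} [Fintype L] [DecidableEq L] [Fintype C] [DecidableEq C] [Fintype L']
  [DecidableEq L'] {o : L' → Option L} {S S' : Finset L} {B B' : Finset L'}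

theorem mem_rs {x : L'} : x ∈ rs o S B ↔ x ∈ B ∧ ∃ ℓ ∈ S, o x = some ℓ := by
  simp [rs, eq_comm]

theorem rs_subset : rs o S B ⊆ B := filter_subset _ _

theorem rs_rs (e : S' ⊆ S) : rs o S' (rs o S B) = rs o S' B := by
  ext x; simp only [mem_rs]
  exact ⟨fun h => ⟨h.1.1, h.2⟩, fun ⟨a, l, b, c⟩ => ⟨⟨a, l, e b, c⟩, l, b, c⟩⟩

theorem Tv.inj (h : Tv o S B) : Set.InjOn o B :=
  card_image_iff.1 (by rw [h.2.1, card_image_of_injective _ (Option.some_injective _), h.2.2])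

theorem Tv.ex (h : Tv o S B) {x : L'} (hx : x ∈ B) : ∃ ℓ ∈ S, o x = some ℓ := by
  have := mem_image_of_mem o hx
  rw [h.2.1] at this
  simpa [eq_comm] using this

theorem Tv.ex' (h : Tv o S B) {ℓ : L} (hl : ℓ ∈ S) : ∃ x ∈ B, o x = some ℓ :=
  mem_image.1 (h.2.1 ▸ mem_image_of_mem some hl)

theorem Tv.ne (h : Tv o S B) : B.Nonempty := card_pos.1 (h.2.2 ▸ h.1.card_pos)

theorem Tv.rs_self (h : Tv o S B) : rs o S B = B :=
  filter_true_of_mem fun _ hx => h.2.1 ▸ mem_image_of_mem o hx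

theorem Tv.rs (h : Tv o S B) (e : S' ⊆ S) (n : S'.Nonempty) : Tv o S' (rs o S' B) := by
  have a : (Gd.rs o S' B).image o = S'.image some := by
    rw [Gd.rs, ← filter_image (p := fun y => y ∈ S'.image some), h.2.1, filter_mem_eq_inter,
      inter_eq_right.2 (image_subset_image e)]
  exact ⟨n, a, by rw [← card_image_of_injOn (h.inj.mono (coe_subset.2 rs_subset)), a,
    card_image_of_injective _ (Option.some_injective _)]⟩

/-- a sub-transversal is a restriction -/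
theorem Tv.sub (h : Tv o S B) (h' : Tv o S' B') (e : B' ⊆ B) : S' ⊆ S ∧ Gd.rs o S' B = B' := by
  have a : S' ⊆ S := fun l k => by
    obtain ⟨x, b, c⟩ := h'.ex' k
    obtain ⟨l', d, f⟩ := h.ex (e b)
    exact Option.some_injective _ (f.symm.trans c) ▸ d
  exact ⟨a, (eq_of_subset_of_card_le (fun x k => mem_rs.2 ⟨e k, h'.ex k⟩)
    ((h.rs a h'.1).2.2.trans h'.2.2.symm).le).symm⟩

theorem Tv.eq (h : Tv o S B) (h' : Tv o S' B) : S = S' :=
  (h'.sub h Subset.rfl).1.antisymm (h.sub h' Subset.rfl).1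

variable {T : TT L C}

/-- only the live coordinates of smaller type matter -/
theorem phi_eq (h : T.Ok) (hm : Hm T) {c : C} (n : (T.ty c).Nonempty) {p p' : C ⊕ L → ℝ}
    (e : ∀ c', T.ty c' ⊆ T.ty c → (T.ty c').Nonempty → p (.inl c') = p' (.inl c')) :
    T.Φ p c = T.Φ p' c := by
  rw [hm p (Sum.elim (fun c => p (.inl c)) fun l => p' (.inr l)) fun _ => rfl]
  exact (h.dat c n).1 _ _ fun v a b => by
    rcases v with v | v
    exacts [e v a b, rfl]

theorem pull_pos {y : UC T o → ℝ} {c : C} (k : Tv o (T.ty c) (rs o (T.ty c) B)) :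
    pull T o B y (.inl c) = y ⟨(c, _), k⟩ := dif_pos k

theorem U_eq (h : T.Ok) (hm : Hm T) (y : UC T o → ℝ) (w : UC T o) (p : C ⊕ L → ℝ)
    (hp : ∀ c (k : Tv o (T.ty c) (rs o (T.ty c) w.1.2)), T.ty c ⊆ T.ty w.1.1 →
      p (.inl c) = y ⟨(c, _), k⟩) : U T o y w = T.Φ p w.1.1 :=
  phi_eq h hm w.2.1 fun c a b => (pull_pos (w.2.rs a b)).trans (hp c _ a).symm

/-- the same with the words below `w` listed as elements of `UC` -/
theorem U_eq' (h : T.Ok) (hm : Hm T) (y : UC T o → ℝ) (w : UC T o) (p : C ⊕ L → ℝ)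
    (hp : ∀ w' : UC T o, w'.1.2 ⊆ w.1.2 → p (.inl w'.1.1) = y w') : U T o y w = T.Φ p w.1.1 :=
  U_eq h hm y w p fun c k _ => hp ⟨(c, _), k⟩ rs_subset

theorem lv_eq (h : T.Ok) (hm : Hm T) (y : Lv T → ℝ) (c : Lv T) (p : C ⊕ L → ℝ)
    (hp : ∀ c' : Lv T, T.ty c' ⊆ T.ty c → p (.inl c') = y c') : lv T y c = T.Φ p c :=
  phi_eq h hm c.2 fun c' a b => (dif_pos b).trans (hp ⟨c', b⟩ a).symm

theorem nd_of {V : Type} [Fintype V] [DecidableEq V] {ty : V → Finset L'}
    {Φ : (V → ℝ) → V → ℝ} (h : Ir.Ty ty Φ) (hi : ∀ v (x : V → ℝ), (∀ c, ty c ≠ ty v → x c = 0) →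
      (∀ c, ty c = ty v → Φ x c = 0) → x v = 0) : Nd ty Φ := by
  refine ⟨h, fun d => ?_⟩
  obtain ⟨x, x0, hx⟩ := exists_mulVec_eq_zero_iff.2 d
  refine x0 (funext fun v => (if_pos rfl).symm.trans (hi v (fun c => if ty c = ty v then x c else 0)
    (fun c k => if_neg k) fun c k => ?_))
  obtain ⟨i, m⟩ := h.ne c
  rw [h.split, h.zero m fun c' _ => by simp +contextual [k], add_zero]
  refine Eq.trans (sum_congr rfl fun c' _ => ?_) (congrFun hx c)
  by_cases e : ty c' = ty v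
  · simp [e]
  · simp [e, h.lp_ne fun z => e (z.trans k)]

/-- a linear parametrisation of the points -/
theorem lin_of_map (h : T.Ok) (hm : Hm T) {V : Type} (f : (V → ℝ) →ₗ[ℝ] C → ℝ) {c : C} {l : L}
    (hl : l ∈ T.ty c) (y : V → ℝ) : IsLinearMap ℝ fun u : V → ℝ =>
      T.Φ (Sum.elim (fun c' => if l ∈ T.ty c' then f u c' else f y c') fun _ => 1) c := by
  have a := ((Bq.lm (Bq.ok_lin h hl) (Sum.elim (f y) 0)).comp
    ((LinearEquiv.sumArrowLequivProdArrow C L ℝ ℝ).symm.toLinearMap.comp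
      ((LinearMap.inl ℝ _ _).comp f))).isLinear
  convert a using 2 with u
  rw [LinearMap.comp_apply, Bq.lm_apply]
  exact congrFun (hm _ _ fun _ => by rfl) c

theorem inj0 (h : T.Ok) (hm : Hm T) (c : C) (n : (T.ty c).Nonempty) {p : C ⊕ L → ℝ}
    (a : ∀ c', T.ty c' ≠ T.ty c → p (.inl c') = 0) (b : ∀ c', T.ty c' = T.ty c → T.Φ p c' = 0) :
    p (.inl c) = 0 := by
  obtain ⟨l, hl⟩ := n
  refine congrFun (h.inj (T.ty c) (Sum.elim (fun c => p (.inl c)) 0) 0 (fun _ => rfl) a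
    fun c' k => ?_) (.inl c)
  rw [← hm p (Sum.elim (fun c => p (.inl c)) 0) fun _ => rfl, b c' k]
  simpa using (Bq.lm (Bq.ok_lin h (k ▸ hl : l ∈ T.ty c')) 0).map_zero.symm.trans
    (congrArg (T.Φ · c') (Bq.sb_self 0))

theorem u1 : U1 := fun L C L' _ _ _ _ _ _ T h hm => by
  refine ⟨fun o => nd_of ⟨fun w => w.2.ne, fun w y y' e => ?_, fun w i hi y => ?_⟩
    fun w x a b => ?_, nd_of ⟨fun c => c.2, fun c y y' e => ?_, fun c l hl y => ?_⟩
    fun c x a b => ?_⟩
  · exact U_eq h hm y w _ fun c k _ => (pull_pos k).trans (e _ rs_subset).symm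
  · obtain ⟨l, hl, e⟩ := w.2.ex hi
    convert lin_of_map h hm (V := UC T o) (LinearMap.pi fun c =>
      if k : Tv o (T.ty c) (rs o (T.ty c) w.1.2) then LinearMap.proj ⟨(c, _), k⟩ else 0) hl y
      using 2 with u
    refine U_eq h hm _ w _ fun c k _ => ?_
    have : i ∈ rs o (T.ty c) w.1.2 ↔ l ∈ T.ty c := by simp [mem_rs, e, show i ∈ w.1.2 from hi]
    simp only [Sum.elim_inl, LinearMap.pi_apply, dif_pos k, LinearMap.proj_apply]
    exact if_congr this.symm rfl rfl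
  · have := inj0 h hm w.1.1 w.2.1 (p := pull T o w.1.2 x) (fun c k => by
      by_cases m : Tv o (T.ty c) (rs o (T.ty c) w.1.2)
      · exact (pull_pos m).trans (a _ fun z => k (m.eq ((show rs o (T.ty c) w.1.2 = w.1.2 from z).symm ▸
          w.2)))
      · exact dif_neg m) fun c k => b ⟨(c, w.1.2), k ▸ w.2⟩ rfl
    rw [pull_pos (w.2.rs_self.symm ▸ w.2)] at this
    exact (congrArg x (Subtype.ext (Prod.ext (by rfl) w.2.rs_self.symm))).trans this
  · exact lv_eq h hm y c _ fun c' k => (dif_pos c'.2).trans (e _ k).symm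
  · convert lin_of_map h hm (V := Lv T) (LinearMap.pi fun c =>
      if k : (T.ty c).Nonempty then LinearMap.proj ⟨c, k⟩ else 0) hl y using 2 with u
    exact lv_eq h hm _ c _ fun c' _ => by simp [c'.2]
  · exact (dif_pos c.2).symm.trans (inj0 h hm c.1 c.2 (p := Sum.elim
      (fun c => if h : (T.ty c).Nonempty then x ⟨c, h⟩ else 0) fun _ => 1) (fun c' k => by
        by_cases m : (T.ty c').Nonempty
        exacts [(dif_pos m).trans (a _ k), dif_neg m]) fun c' k => b ⟨c', k ▸ c.2⟩ k)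

end Crest.Agent.N49.Gd

end
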