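import Crest.Agent.N49.Gd.I1

/-!
# Row 49 (helper89): the leaf `UCL` (clones of clones)
-/

set_option autoImplicit false
set_option linter.unusedSectionVars false

open Finset Matrix

noncomputable section

namespace Crest.Agent.N49.Gd

open Rm Ir

variable {L C L' K D : Type} [Fintype L] [DecidableEq L] [Fintype C] [DecidableEq C] [Fintype L']
  [DecidableEq L'] [Fintype K] [DecidableEq K] [Fintype D] [DecidableEq D]

theorem cv_inj {o : L' → Option L} {S : Finset L} {B : Finset L'} (h : Tv o S B) :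
    Set.InjOn o B :=
  card_image_iff.1 (by rw [h.2.1, card_image_of_injective _ (Option.some_injective _), h.2.2])

theorem cv_rs {o : L' → Option L} {S S' : Finset L} {B : Finset L'} (h : Tv o S B) (a : S' ⊆ S)
    (n : S'.Nonempty) : Tv o S' (rs o S' B) := by
  have e : (rs o S' B).image o = S'.image some := by
    refine Subset.antisymm (image_subset_iff.2 fun x m => (mem_filter.1 m).2) fun s m => ?_
    obtain ⟨x, b, rfl⟩ := mem_image.1 (h.2.1 ▸ image_subset_image a m)
    exact mem_image_of_mem _ (mem_filter.2 ⟨b, m⟩)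
  refine ⟨n, e, ?_⟩
  rw [← card_image_of_injOn (s := rs o S' B) ((cv_inj h).mono (filter_subset _ _)), e,
    card_image_of_injective _ (Option.some_injective _)]

theorem cv_phi {T : TT L C} (h : T.Ok) (m : Hm T) {c : C} (n : (T.ty c).Nonempty)
    {p p' : C ⊕ L → ℝ} (a : ∀ d, T.ty d ⊆ T.ty c → (T.ty d).Nonempty → p (.inl d) = p' (.inl d)) :
    T.Φ p c = T.Φ p' c := by
  rw [m p (Sum.elim (fun d => p (.inl d)) fun i => p' (.inr i)) fun _ => rfl]
  exact (h.dat c n).1 _ _ fun v b k => by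
    cases v with
    | inl d => exact a d b k
    | inr i => rfl

/-- a tower which covers another one letter by letter has the same clone systems -/
theorem ir_cover (T' : TT K D) (T : TT L C) (f : K → L) (π : D → C) (m : K → ℝ)
    (h1 : ∀ d, (T'.ty d).image f = T.ty (π d)) (h2 : ∀ d, #(T'.ty d) = #(T.ty (π d)))
    (hi : ∀ d d', π d = π d' → T'.ty d = T'.ty d' → d = d')
    (hs : ∀ c (S : Finset K), S.image f = T.ty c → ∃ d, π d = c ∧ T'.ty d ⊆ S)
    (hp : ∀ d, (T'.ty d).Nonempty → ∀ p' p, (∀ d', T'.ty d' ⊆ T'.ty d → (T'.ty d').Nonempty →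
      p' (.inl d') = p (.inl (π d'))) → T'.Φ p' d = (∏ s ∈ T'.ty d, m s) * T.Φ p (π d))
    (o : L' → Option K) (la : L' → ℝ) :
    ir T' o la = ir T (fun x => (o x).map f) fun x => la x * (o x).elim 1 m := by
  have im : ∀ (S : Finset K), (S.image some).image (Option.map f) = (S.image f).image some :=
    fun S => by rw [image_image, image_image]; rfl
  have tv : ∀ {d B}, Tv o (T'.ty d) B → Tv (fun x => (o x).map f) (T.ty (π d)) B :=
    fun {d B} h => ⟨h1 d ▸ h.1.image f, by
      rw [← h1, ← im, ← h.2.1, image_image]; rfl, h.2.2.trans (h2 d)⟩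
  refine (i1 _ _ _ _ (fun w : UC T' o => (⟨(π w.1.1, w.1.2), tv w.2⟩ : UC T _)) ⟨?_, ?_⟩ ?_).1
  · rintro ⟨⟨d, B⟩, h⟩ ⟨⟨d', B'⟩, h'⟩ e
    obtain ⟨e1, rfl⟩ := Prod.mk.inj (congrArg Subtype.val e)
    obtain rfl := hi d d' e1 (image_injective (Option.some_injective _) (h.2.1.symm.trans h'.2.1))
    rfl
  · rintro ⟨⟨c, B⟩, h⟩
    obtain ⟨d, rfl, k⟩ := hs c (univ.filter fun s => some s ∈ B.image o) (by
      apply image_injective (Option.some_injective _)
      rw [← h.2.1]
      ext t
      simp only [mem_image, mem_filter, mem_univ, true_and]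
      constructor
      · rintro ⟨_, ⟨s, ⟨x, a, b⟩, rfl⟩, rfl⟩
        exact ⟨x, a, by rw [b]; rfl⟩
      · rintro ⟨x, a, rfl⟩
        obtain ⟨i, -, b⟩ := mem_image.1 (h.2.1 ▸ mem_image_of_mem (fun x => (o x).map f) a)
        obtain ⟨s, e, rfl⟩ := Option.map_eq_some_iff.1 b.symm
        exact ⟨_, ⟨s, ⟨x, a, e⟩, rfl⟩, b⟩)
    have c := h.2.2.trans (h2 d).symm
    refine ⟨⟨(d, B), image_nonempty.1 (h1 d ▸ h.1), (eq_of_subset_of_card_le
      (image_subset_iff.2 fun s a => (mem_filter.1 (k a)).2) ?_).symm, c⟩, rfl⟩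
    rw [card_image_of_injective _ (Option.some_injective _)]
    exact card_image_le.trans c.le
  rintro y ⟨⟨d, B⟩, h⟩
  have fi : Set.InjOn f (T'.ty d) := card_image_iff.1 (by rw [h1, h2])
  simp only [Gd.nar, uty, U, prod_mul_distrib, mul_assoc]
  rw [hp d h.1 _ (pull T (fun x => (o x).map f) B y) fun d' a n => ?_,
    ← prod_image (g := o) (f := fun s => s.elim 1 m) (cv_inj h), h.2.1,
    prod_image (Option.some_injective _).injOn]
  · rfl
  have e : rs o (T'.ty d') B = rs (fun x => (o x).map f) (T.ty (π d')) B := by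
    refine filter_congr fun x b => ?_
    obtain ⟨s, k, e⟩ := mem_image.1 (h.2.1 ▸ mem_image_of_mem o b)
    simp only [← e, ← h1, Option.map_some, (Option.some_injective _).mem_finset_image]
    exact ⟨mem_image_of_mem f, fun t => by
      obtain ⟨s', k', e'⟩ := mem_image.1 t
      exact fi (a k') k e' ▸ k'⟩
  have t := cv_rs h a n
  simp only [pull, Sum.elim_inl]
  rw [dif_pos t, dif_pos (e ▸ tv t)]
  exact congrArg y (Subtype.ext (Prod.ext rfl e))

theorem ucl : UCL := by
  intro L C L' _ _ _ _ _ _ T h hm j r pt a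
  refine ⟨fun p p' k => funext fun c => ?_, ir_cover (T.cl j pt a) T _
    (Sum.elim id fun cx => cx.1.1) _ ?_ ?_ ?_ ?_ ?_⟩
  · rcases c with c | ⟨c, x⟩
    · exact congrFun (hm _ _ fun d => k _) c
    · refine congrArg _ (congrFun (hm _ _ fun d => ?_) c.1)
      simp only [TT.px, k]
  · rintro (c | ⟨c, x⟩)
    · simp [TT.cl, image_image]
    · simp [TT.cl, image_image, insert_erase c.2]
  · rintro (c | ⟨c, x⟩)
    · simp [TT.cl, card_image_of_injective _ Sum.inl_injective]
    · simp [TT.cl, card_image_of_injective _ Sum.inl_injective, card_erase_add_one c.2]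
  · rintro (c | ⟨c, x⟩) (d | ⟨d, z⟩) e k
    · exact congrArg _ e
    · have : Sum.inr z ∈ (T.cl j pt a).ty (.inl c) := k ▸ mem_insert_self _ _
      simp [TT.cl] at this
    · have : Sum.inr x ∈ (T.cl j pt a).ty (.inl d) := k ▸ mem_insert_self _ _
      simp [TT.cl] at this
    · have : Sum.inr x ∈ (T.cl j pt a).ty (.inr (d, z)) := k ▸ mem_insert_self _ _
      simp only [TT.cl, Sum.elim_inr, mem_insert, Sum.inr.injEq, mem_image, reduceCtorEq,
        and_false, exists_false, or_false] at this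
      exact congrArg _ (Prod.ext (Subtype.ext e) this)
  · intro c S e
    by_cases k : ∃ x, Sum.inr x ∈ S
    · obtain ⟨x, k⟩ := k
      refine ⟨.inr (⟨c, e ▸ mem_image_of_mem _ k⟩, x), rfl, insert_subset k
        (image_subset_iff.2 fun i b => ?_)⟩
      obtain ⟨s | s, m, rfl⟩ := mem_image.1 (e.ge (mem_of_mem_erase b))
      exacts [m, absurd rfl (ne_of_mem_erase b)]
    · refine ⟨.inl c, rfl, image_subset_iff.2 fun i b => ?_⟩
      obtain ⟨s | s, m, rfl⟩ := mem_image.1 (e.ge b)
      exacts [m, absurd ⟨s, m⟩ k]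
  rintro (c | ⟨c, x⟩) n p' p k
  · have e : ∏ s ∈ (T.cl j pt a).ty (.inl c),
        Sum.elim (fun _ => (1 : ℝ)) (fun i => 2 ^ a i) s = 1 := by
      simp [TT.cl, prod_image Sum.inl_injective.injOn]
    rw [e, one_mul]
    exact cv_phi h hm (image_nonempty.1 n) fun d b m =>
      k (.inl d) (image_subset_image b) (m.image _)
  · have e : ∏ s ∈ (T.cl j pt a).ty (.inr (c, x)),
        Sum.elim (fun _ => (1 : ℝ)) (fun i => 2 ^ a i) s = 2 ^ a x := by
      simp [TT.cl, prod_image Sum.inl_injective.injOn]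
    rw [e]
    refine congrArg _ (cv_phi h hm ⟨j, c.2⟩ fun d b m => ?_)
    by_cases t : j ∈ T.ty d
    · exact (dif_pos t).trans (k (.inr (⟨d, t⟩, x)) (insert_subset_insert _
        (image_subset_image (erase_subset_erase _ b))) (insert_nonempty _ _))
    · exact (dif_neg t).trans (k (.inl d) ((image_subset_image (subset_erase.2 ⟨b, t⟩)).trans
        (subset_insert _ _)) (m.image _))

end Crest.Agent.N49.Gd

end
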