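import Crest.Agent.N49.Gd.I1

/-!
# Row 49 (helper10): the clone system of a deletion; one clone of every letter
-/

set_option autoImplicit false
set_option linter.unusedSectionVars false

open Finset Matrix

noncomputable section

namespace Crest.Agent.N49.Gd

open Rm Ir

namespace Udl

variable {L L' : Type} [DecidableEq L] [DecidableEq L']

theorem tv_del (o : L' → Option L) (ℓ : L) (S : Finset L) (B : Finset L') :
    Tv o (if ℓ ∈ S then ∅ else S) B ↔ Tv (fun x => if o x = some ℓ then none else o x) S B := by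
  constructor
  · rintro ⟨a, b, c⟩
    have n : ℓ ∉ S := fun k => by simp [k] at a
    rw [if_neg n] at a b c
    refine ⟨a, ?_, c⟩
    rw [← b]
    refine image_congr fun x hx => if_neg fun k => n ?_
    have := mem_image_of_mem o (mem_coe.1 hx)
    rw [b, k] at this
    simpa using this
  · rintro ⟨a, b, c⟩
    have n : ℓ ∉ S := fun k => by
      have := mem_image_of_mem some k
      rw [← b, mem_image] at this
      obtain ⟨x, -, e⟩ := this
      split_ifs at e with m
      exact m e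
    rw [if_neg n]
    refine ⟨a, ?_, c⟩
    rw [← b]
    refine image_congr fun x hx => (if_neg fun k => ?_).symm
    have := mem_image_of_mem (fun x => if o x = some ℓ then none else o x) (mem_coe.1 hx)
    rw [b] at this
    simp [k] at this

theorem rs_del (o : L' → Option L) {ℓ : L} {S : Finset L} (n : ℓ ∉ S) (B : Finset L') :
    rs o S B = rs (fun x => if o x = some ℓ then none else o x) S B := by
  refine filter_congr fun x _ => ?_
  by_cases k : o x = some ℓ
  · simp [k, n]
  · simp [k]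

theorem tv_map {f : L ↪ L'} {o : L' → Option L} (h : ∀ x ℓ, o x = some ℓ ↔ x = f ℓ) (S : Finset L)
    (B : Finset L') : Tv o S B ↔ S.Nonempty ∧ B = S.map f := by
  have k : ∀ ℓ, o (f ℓ) = some ℓ := fun ℓ => (h _ _).2 rfl
  constructor
  · rintro ⟨a, b, -⟩
    refine ⟨a, Finset.ext fun x => ⟨fun hx => ?_, fun hx => ?_⟩⟩
    · have := mem_image_of_mem o hx
      rw [b, mem_image] at this
      obtain ⟨ℓ, m, e⟩ := this
      exact mem_map.2 ⟨ℓ, m, ((h _ _).1 e.symm).symm⟩
    · obtain ⟨ℓ, m, rfl⟩ := mem_map.1 hx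
      have := mem_image_of_mem some m
      rw [← b, mem_image] at this
      obtain ⟨x, m', e⟩ := this
      exact (h _ _).1 e ▸ m'
  · rintro ⟨a, rfl⟩
    refine ⟨a, ?_, card_map _⟩
    rw [map_eq_image, image_image]
    exact image_congr fun ℓ _ => k ℓ

theorem rs_map {f : L ↪ L'} {o : L' → Option L} (h : ∀ x ℓ, o x = some ℓ ↔ x = f ℓ)
    {S S' : Finset L} (e : S' ⊆ S) : rs o S' (S.map f) = S'.map f := by
  ext x
  simp only [rs, mem_filter, mem_image, mem_map]
  constructor
  · rintro ⟨-, ℓ, m, k⟩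
    exact ⟨ℓ, m, ((h _ _).1 k.symm).symm⟩
  · rintro ⟨ℓ, m, rfl⟩
    exact ⟨⟨ℓ, e m, rfl⟩, ℓ, m, ((h _ _).2 rfl).symm⟩

end Udl

theorem udl : UDL := by
  intro L C L' _ _ _ _ _ _ T h hm
  refine ⟨fun ℓ => ⟨fun p p' e => funext fun c => ?_, fun o la => ?_⟩, fun f o ho t => ?_⟩
  · simp only [TT.del, e, hm p p' e]
  · let g : UC (T.del ℓ) o → UC T fun x => if o x = some ℓ then none else o x :=
      fun w => ⟨w.1, (Udl.tv_del o ℓ _ _).1 w.2⟩
    refine (i1 _ _ _ _ g ⟨fun w w' e => Subtype.ext (congrArg (fun u => u.1) e :),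
      fun w => ⟨⟨w.1, (Udl.tv_del o ℓ _ _).2 w.2⟩, rfl⟩⟩ fun y v => ?_).1
    have a : ((T.del ℓ).ty v.1.1).Nonempty := v.2.1
    have n : ℓ ∉ T.ty v.1.1 := fun k => by simp [TT.del, k] at a
    refine congrArg (fun r => (∏ i ∈ v.1.2, la i) * r) ?_
    refine (if_neg n).trans ((h.dat _ (g v).2.1).1 _ _ fun u hu _ => ?_)
    rcases u with c | j
    · have n' : ℓ ∉ T.ty c := fun k => n (hu k)
      have k : ∀ B1 B2, B1 = B2 → (if h : Tv o ((T.del ℓ).ty c) B1 then y (g ⟨(c, B1), h⟩) else 0) =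
          if h : Tv (fun x => if o x = some ℓ then none else o x) (T.ty c) B2 then y ⟨(c, B2), h⟩
          else 0 := by
        rintro B _ rfl
        by_cases m : Tv o ((T.del ℓ).ty c) B
        · rw [dif_pos m, dif_pos ((Udl.tv_del o ℓ _ _).1 m)]
        · rw [dif_neg m, dif_neg fun m' => m ((Udl.tv_del o ℓ _ _).2 m')]
      refine k _ _ ?_
      rw [← Udl.rs_del o n']
      exact congrArg (fun S => rs o S v.1.2) (if_neg n')
    · rfl
  · let g : Lv T → UC T o := fun c => ⟨(c.1, (T.ty c).map f), (Udl.tv_map ho _ _).2 ⟨c.2, rfl⟩⟩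
    refine (i1 _ _ _ _ g ⟨fun w w' e => Subtype.ext (congrArg (fun u => u.1.1) e),
      fun w => ⟨⟨w.1.1, w.2.1⟩, Subtype.ext (Prod.ext rfl ((Udl.tv_map ho _ _).1 w.2).2.symm)⟩⟩
      fun y v => ?_).1.symm
    have a : ∏ _i ∈ T.ty v, t = ∏ _i ∈ (T.ty v).map f, t := by simp
    refine congrArg₂ (· * ·) a ((h.dat _ v.2).1 _ _ fun u hu hn => ?_)
    rcases u with c | j
    · have hn' : (T.ty c).Nonempty := hn
      have e := Udl.rs_map ho (show T.ty c ⊆ T.ty v from hu)
      have m : Tv o (T.ty c) (rs o (T.ty c) ((T.ty v).map f)) := (Udl.tv_map ho _ _).2 ⟨hn', e⟩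
      refine (dif_pos hn').trans (Eq.trans ?_ (dif_pos m).symm)
      exact congrArg y (Subtype.ext (Prod.ext rfl e.symm))
    · rfl

end Crest.Agent.N49.Gd

end
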