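import Crest.Agent.N49.Gd.St

/-!
# Row 49 (helper64): recentring is fixing one more clone
-/

set_option autoImplicit false
set_option linter.unusedSectionVars false

open Finset Matrix

noncomputable section

namespace Crest.Agent.N49.Gd

open Rm Ir

namespace Urc

variable {L C L' : Type} [Fintype L] [DecidableEq L] [Fintype C] [DecidableEq C] [Fintype L']
  [DecidableEq L'] {o : L' → Option L} {x : L'} {j : L} {S : Finset L} {B : Finset L'}

theorem mem (h : Tv o S B) {i : L'} (hi : i ∈ B) : ∃ ℓ ∈ S, o i = some ℓ := by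
  have := mem_image_of_mem o hi
  rw [h.2.1, mem_image] at this
  obtain ⟨ℓ, k, e⟩ := this
  exact ⟨ℓ, k, e.symm⟩

theorem nm (hx : o x = none) (h : Tv o S B) : x ∉ B := fun k => by
  obtain ⟨ℓ, -, e⟩ := mem h k
  simp [hx] at e

theorem ne (h : Tv o S B) : B.Nonempty := card_pos.1 (h.2.2 ▸ card_pos.2 h.1)

theorem nj (h : Tv o (S.erase j) B) {i : L'} (hi : i ∈ B) : o i ≠ some j := by
  obtain ⟨ℓ, k, e⟩ := mem h hi
  rw [e]
  exact fun n => ne_of_mem_erase k (Option.some.inj n)

theorem im_up (hB : x ∉ B) : B.image (Function.update o x (some j)) = B.image o :=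
  image_congr fun i hi => Function.update_of_ne (by rintro rfl; exact hB hi) _ _

theorem tv_up (hB : x ∉ B) : Tv (Function.update o x (some j)) S B ↔ Tv o S B := by
  rw [Tv, Tv, im_up hB]

theorem tv_ins (hB : x ∉ B) (hj : j ∈ S) (hn : ∀ i ∈ B, o i ≠ some j) (hS : S ≠ {j}) :
    Tv (Function.update o x (some j)) S (insert x B) ↔ Tv o (S.erase j) B := by
  have n : (S.erase j).Nonempty := nonempty_iff_ne_empty.2 fun e =>
    hS (((erase_eq_empty_iff _ _).1 e).resolve_left (ne_empty_of_mem hj))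
  have a1 : some j ∉ B.image o := fun k => by
    obtain ⟨i, hi, e⟩ := mem_image.1 k
    exact hn i hi e
  have a2 : some j ∉ (S.erase j).image some := by simp
  have e : S.image some = insert (some j) ((S.erase j).image some) := by
    rw [← image_insert, insert_erase hj]
  have c := card_erase_add_one hj
  rw [Tv, Tv, image_insert, im_up hB, Function.update_self, card_insert_of_notMem hB, e]
  refine ⟨fun h => ⟨n, ?_, by omega⟩, fun h => ⟨⟨j, hj⟩, by rw [h.2.1], by omega⟩⟩
  rw [← erase_insert a1, h.2.1, erase_insert a2]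

theorem tv_one : Tv (Function.update o x (some j)) S {x} ↔ S = {j} := by
  refine ⟨fun h => ?_, by rintro rfl; simp [Tv]⟩
  obtain ⟨ℓ, rfl⟩ := card_eq_one.1 (h.2.2.symm.trans (card_singleton _))
  obtain ⟨ℓ', k, e⟩ := mem h (mem_singleton_self _)
  rw [Function.update_self, mem_singleton.1 k] at e
  rw [Option.some.inj e]

theorem rs_up (hB : x ∉ B) : rs (Function.update o x (some j)) S B = rs o S B :=
  filter_congr fun i hi => by rw [Function.update_of_ne (by rintro rfl; exact hB hi)]

theorem rs_ins (hB : x ∉ B) : rs (Function.update o x (some j)) S (insert x B) =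
    if j ∈ S then insert x (rs o S B) else rs o S B := by
  rw [rs, filter_insert, ← rs, rs_up hB]
  simp

theorem rs_er (hn : ∀ i ∈ B, o i ≠ some j) : rs o S B = rs o (S.erase j) B :=
  filter_congr fun i hi => by
    have := hn i hi
    cases e : o i with
    | none => simp
    | some ℓ => simp [show ℓ ≠ j from fun k => this (k ▸ e)]

theorem prod_two (h : Tv o S B) (t : ℝ) :
    ∏ i ∈ B, (if o i = some j then t else 1) = if j ∈ S then t else 1 := by
  have inj : Set.InjOn o B := card_image_iff.1 (by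
    rw [h.2.1, card_image_of_injective _ (Option.some_injective _), h.2.2])
  rw [← prod_image (s := B) (g := o) (f := fun v => if v = some j then t else 1) inj, h.2.1,
    prod_ite_eq']
  simp

variable (T : TT L C)

theorem pull_pos (y : UC T o → ℝ) {c : C} {B B' : Finset L'} (e : rs o (T.ty c) B = B')
    (h : Tv o (T.ty c) B') : pull T o B y (.inl c) = y ⟨(c, B'), h⟩ := by
  subst e; exact dif_pos h

theorem pull_neg (y : UC T o → ℝ) {c : C} {B B' : Finset L'} (e : rs o (T.ty c) B = B')
    (h : ¬ Tv o (T.ty c) B') : pull T o B y (.inl c) = 0 := by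
  subst e; exact dif_neg h

theorem nsing {c : T.Bl j} (h : Tv o ((T.ty c.1).erase j) B) : T.ty c.1 ≠ {j} := fun e => by
  simpa [e] using h.1

/-- the relabelling -/
def fm (a : ℕ) (z : C → ℤ) (hx : o x = none) :
    UC (T.rc j a z) o → Np (uty T (Function.update o x (some j))) x
  | ⟨(.inl c, B), h⟩ => ⟨⟨(c, B), (tv_up (nm hx h)).2 h⟩,
      fun e => nm hx h ((show B = {x} from e) ▸ mem_singleton_self x)⟩
  | ⟨(.inr c, B), h⟩ => ⟨⟨(c.1, insert x B), (tv_ins (nm hx h) c.2 (fun _ => nj h) (nsing T h)).2 h⟩,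
      fun e => by
        obtain ⟨i, hi⟩ := ne h
        have : i ∈ ({x} : Finset L') := (show insert x B = {x} from e) ▸ mem_insert_of_mem hi
        exact nm hx h (mem_singleton.1 this ▸ hi)⟩

theorem fm_bij (a : ℕ) (z : C → ℤ) (hx : o x = none) :
    Function.Bijective (fm (j := j) T a z hx) := by
  constructor
  · rintro ⟨⟨c | c, B⟩, h⟩ ⟨⟨c' | c', B'⟩, h'⟩ e <;>
      simp only [fm, Subtype.mk.injEq, Prod.mk.injEq] at e
    · obtain ⟨rfl, rfl⟩ := e; rfl
    · exact absurd (e.2 ▸ mem_insert_self x B') (nm hx h)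
    · exact absurd (e.2 ▸ mem_insert_self x B) (nm hx h')
    · obtain ⟨e1, e2⟩ := e
      obtain rfl := Subtype.ext e1
      obtain rfl : B = B' := by
        rw [← erase_insert (show x ∉ B from nm hx h), e2, erase_insert (show x ∉ B' from nm hx h')]
      rfl
  · rintro ⟨⟨⟨c, B⟩, h⟩, n⟩
    by_cases k : x ∈ B
    swap
    · exact ⟨⟨(.inl c, B), (tv_up k).1 h⟩, rfl⟩
    obtain ⟨B, k', rfl⟩ : ∃ B', x ∉ B' ∧ B = insert x B' :=
      ⟨B.erase x, notMem_erase _ _, (insert_erase k).symm⟩
    have hj : j ∈ T.ty c := by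
      obtain ⟨ℓ, m, e⟩ := mem h k
      rw [Function.update_self] at e
      exact Option.some.inj e ▸ m
    have inj : Set.InjOn (Function.update o x (some j)) (insert x B : Finset L') :=
      card_image_iff.1 (by rw [h.2.1, card_image_of_injective _ (Option.some_injective _), h.2.2])
    have hn : ∀ i ∈ B, o i ≠ some j := fun i hi e => by
      have m : i ≠ x := by rintro rfl; exact k' hi
      exact m (inj (mem_insert_of_mem hi) k (by rw [Function.update_of_ne m, Function.update_self, e]))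
    have hS : T.ty c ≠ {j} := fun e => n (by
      have := h.2.2
      rw [e, card_insert_of_notMem k', card_singleton] at this
      change insert x B = {x}
      rw [card_eq_zero.1 (show #B = 0 by omega)]
      rfl)
    exact ⟨⟨(.inr ⟨c, hj⟩, B), (tv_ins k' hj hn hS).1 h⟩, rfl⟩

theorem jp_neg {α V L' : Type} [DecidableEq L'] {x : L'} {ty : V → Finset L'} (z : Pu ty x → α)
    (y : Np ty x → α) {v : V}
    (h : ty v ≠ {x}) : jp z y v = y ⟨v, h⟩ := dif_neg h

theorem jp_pos {α V L' : Type} [DecidableEq L'] {x : L'} {ty : V → Finset L'} (z : Pu ty x → α)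
    (y : Np ty x → α) {v : V}
    (h : ty v = {x}) : jp z y v = z ⟨v, h⟩ := dif_pos h

theorem pull_old (a : ℕ) (z : C → ℤ) (hx : o x = none) (hB : x ∉ B) {B' : Finset L'} (c : C)
    (e : rs (Function.update o x (some j)) (T.ty c) B' = rs o (T.ty c) B) (w) (y) :
    pull (T.rc j a z) o B (y ∘ fm T a z hx) (.inl (.inl c)) =
      pull T (Function.update o x (some j)) B' (jp w y) (.inl c) := by
  have hb : x ∉ rs o (T.ty c) B := fun k => hB (mem_of_mem_filter _ k)
  by_cases h : Tv o (T.ty c) (rs o (T.ty c) B)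
  · rw [pull_pos T _ e ((tv_up (j := j) hb).2 h)]
    exact (pull_pos (T.rc j a z) _ rfl h).trans (jp_neg w y (fm T a z hx ⟨(.inl c, _), h⟩).2).symm
  · rw [pull_neg T _ e fun k => h ((tv_up hb).1 k)]
    exact pull_neg (T.rc j a z) _ rfl h

theorem pull_dn (a : ℕ) (z : C → ℤ) (hx : o x = none) (hB : x ∉ B) (hn : ∀ i ∈ B, o i ≠ some j)
    (c : C) (y) : T.dn j z (pull (T.rc j a z) o B (y ∘ fm T a z hx)) (.inl c) =
      pull T (Function.update o x (some j)) (insert x B)
        (jp (Po.zc fun v => z v.1.1.1) y) (.inl c) := by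
  by_cases hj : j ∈ T.ty c
  swap
  · exact (dif_neg hj).trans (pull_old T a z hx hB c (by rw [rs_ins hB, if_neg hj]) _ _)
  have e : rs (Function.update o x (some j)) (T.ty c) (insert x B) =
      insert x (rs o ((T.ty c).erase j) B) := by rw [rs_ins hB, if_pos hj, rs_er hn]
  refine (dif_pos hj).trans ?_
  by_cases hS : T.ty c = {j}
  · have e' : rs (Function.update o x (some j)) (T.ty c) (insert x B) = {x} := by
      rw [e, hS]; simp [rs]
    rw [if_pos hS, pull_pos T _ e' (tv_one.2 hS)]
    exact Eq.symm (by rw [jp_pos _ _ (by rfl)]; rfl)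
  have hb : x ∉ rs o ((T.ty c).erase j) B := fun k => hB (mem_of_mem_filter _ k)
  have t := tv_ins hb hj (fun i k => hn i (mem_of_mem_filter _ k)) hS
  refine (if_neg hS).trans ?_
  by_cases h : Tv o ((T.ty c).erase j) (rs o ((T.ty c).erase j) B)
  · rw [pull_pos T _ e (t.2 h)]
    exact (pull_pos (T.rc j a z) (c := .inr ⟨c, hj⟩) _ rfl h).trans
      (jp_neg _ y (fm T a z hx ⟨(.inr ⟨c, hj⟩, _), h⟩).2).symm
  · rw [pull_neg T _ e fun k => h (t.1 k)]
    exact pull_neg (T.rc j a z) (c := .inr ⟨c, hj⟩) _ rfl h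

/-- the relabelling of the pure words -/
def gm (v : Pu (uty T (Function.update o x (some j))) x) : Pu (fun c : Lv T => T.ty c) j :=
  ⟨⟨v.1.1.1, v.1.2.1⟩, tv_one.1 ((show v.1.1.2 = {x} from v.2) ▸ v.1.2)⟩

theorem gm_bij : Function.Bijective (gm (o := o) (x := x) (j := j) T) := by
  constructor
  · rintro ⟨⟨⟨c, B⟩, h⟩, e⟩ ⟨⟨⟨c', B'⟩, h'⟩, e'⟩ k
    obtain rfl : B = {x} := e
    obtain rfl : B' = {x} := e'
    obtain rfl : c = c' := congrArg (·.1.1) k
    rfl
  · rintro ⟨⟨c, n⟩, e⟩
    exact ⟨⟨⟨(c, {x}), tv_one.2 e⟩, rfl⟩, rfl⟩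

end Urc

open Urc

theorem urc (i1 : I1) : URC := fun L C L' _ _ _ _ _ _ T _ hm j a => by
  refine ⟨fun z p p' e => funext ?_, fun o x hx la => ⟨fun z => ?_, fun H _ => ?_⟩⟩
  · rintro (c | c)
    · exact congrArg _ (congrFun (hm _ _ fun c => e _) c)
    · change (if _ then _ else _) = if _ then _ else _
      rw [e, hm (T.dn j z p) (T.dn j z p') fun c => by simp only [TT.dn, e]]
  · refine (i1 _ _ _ _ (fm T a z hx) (fm_bij T a z hx) ?_).1
    rintro y ⟨⟨c | c, B⟩, h⟩
    · have hB : x ∉ B := nm hx h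
      change (∏ i ∈ B, la i) * ((if j ∈ T.ty c then 2 ^ a else 1) * T.Φ _ c) =
        (∏ i ∈ B, _) * T.Φ _ c
      rw [prod_update_of_notMem hB, prod_mul_distrib, prod_two (B := B) (S := T.ty c) h, mul_assoc]
      exact congrArg _ (congrArg _ (congrFun (hm _ _ fun c => pull_old T a z hx hB c (rs_up hB) _ _) c))
    · have hB : x ∉ B := nm hx h
      change (∏ i ∈ B, la i) * (if _ then _ else T.Φ _ c.1) = (∏ i ∈ insert x B, _) * T.Φ _ c.1
      rw [if_neg (nsing T h), prod_insert hB, Function.update_self, one_mul,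
        prod_update_of_notMem hB, prod_mul_distrib, prod_two (B := B) (S := (T.ty c.1).erase j) h,
        if_neg (notMem_erase _ _), mul_one]
      exact congrArg _ (congrFun (hm _ _ fun c => pull_dn T a z hx hB (fun _ => nj h) c _) c.1)
  · rw [(i1 _ _ (pu (fun c : Lv T => T.ty c) j (lv T)) _ (gm T) (gm_bij T) ?_).2.2]
    · congr 1
      ext y
      refine exists_congr fun z' => and_congr_right fun _ => ⟨fun e => funext fun v => ?_, ?_⟩
      · obtain ⟨w, rfl⟩ := (gm_bij (o := o) (x := x) T).2 v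
        exact congrFun e w
      · rintro rfl
        rfl
    rintro y ⟨⟨⟨c, B⟩, h⟩, e⟩
    obtain rfl : B = {x} := e
    change (∏ i ∈ {x}, _) * T.Φ _ c = T.Φ _ c
    rw [prod_singleton, Function.update_self, one_mul]
    refine congrFun (hm _ _ fun c => ?_) c
    have e : rs (Function.update o x (some j)) (T.ty c) {x} = if j ∈ T.ty c then {x} else ∅ :=
      rs_ins (B := ∅) (notMem_empty x)
    by_cases hS : T.ty c = {j}
    · rw [if_pos (hS ▸ mem_singleton_self j)] at e
      rw [pull_pos T _ e (tv_one.2 hS)]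
      exact (dif_pos rfl).trans ((dif_pos (hS ▸ singleton_nonempty j)).trans
        (jp_pos (ty := fun c : Lv T => T.ty c) _ _ hS)).symm
    · refine (pull_neg T _ e fun k => ?_).trans (Eq.symm ?_)
      · split_ifs at k
        exacts [hS (tv_one.1 k), not_nonempty_empty (ne k)]
      · by_cases n : (T.ty c).Nonempty
        exacts [(dif_pos n).trans (dif_neg hS), dif_neg n]

end Crest.Agent.N49.Gd

end
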