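import Crest.Agent.N49.Gd.Good
import Crest.Agent.N49.Gd.I5
import Crest.Agent.N49.Gd.Pr
import Crest.Agent.N49.Gd.Smi
import Crest.Agent.N49.Gd.Ucl
import Crest.Agent.N49.Gd.Udl
import Crest.Agent.N49.Gd.Urc
import Crest.Agent.N49.Gd.Tv
import Crest.Agent.N49.Gd.I1

/-! # Row 49 (helper2): `irr` small implies `Good`, unconditionally -/

namespace Crest.Agent.N49.Gd

theorem smI : SMI := smi pr i1 i5 u1

theorem goodT : GOOD := good u1 ucl udl (urc i1) pr smI

end Crest.Agent.N49.Gd
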