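import Crest.Agent.N49.Gd.I2
import Crest.Agent.N49.Rm.Op
import Crest.Agent.N49.Rm.Pr

/-!
# Row 49 (helper2): `irr` small implies `Good`
-/

set_option autoImplicit false

open Finset Matrix

noncomputable section

namespace Crest.Agent.N49.Gd

open Rm Ir

variable {L C : Type} [Fintype L] [DecidableEq L] [Fintype C] [DecidableEq C] {T : TT L C}
  {N n : ℕ} {t τ : ℝ}

theorem Inv.lv_le (h1 : U1) (h3 : UDL) (h : Inv T N n t τ) (hL : Fintype.card L ≤ n) (hn : n ≤ N)
    {t' : ℝ} (h0 : 0 < t') (ht : t' ≤ t) :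
    irr (nar (fun c : Lv T => T.ty c) (fun _ => t') (lv T)) ≤ 1 + τ := by
  obtain ⟨f⟩ : Nonempty (L ↪ Fin N) := Function.Embedding.nonempty_of_card_le (by simp; omega)
  classical
  obtain ⟨o, ho⟩ : ∃ o : Fin N → Option L, ∀ x ℓ, o x = some ℓ ↔ x = f ℓ :=
    ⟨Function.partialInv f, fun x ℓ => (f.injective.isPartialInv ℓ x).trans
      eq_comm⟩
  have a : act o ≤ n := by
    refine le_trans (card_le_card fun x hx => ?_) ((card_image_le (s := univ) (f := f)).trans hL)
    obtain ⟨ℓ, e⟩ := Option.ne_none_iff_exists'.1 (mem_filter.1 hx).2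
    exact mem_image.2 ⟨ℓ, mem_univ _, ((ho x ℓ).1 e).symm⟩
  refine (i2 _ _ _ _ (h1 L C (Fin N) T h.1 h.2.1).2 _ (fun _ => t) (fun _ => h0) fun _ => ht).2.trans ?_
  rw [← (h3 L C (Fin N) T h.1 h.2.1).2 f o ho]
  exact h.2.2 o a

theorem Inv.le (h1 : U1) (h : Inv T N n t τ) {o : Fin N → Option L} (ho : act o ≤ n)
    {la : Fin N → ℝ} (h0 : ∀ x, 0 < la x) (ht : ∀ x, la x ≤ t) : ir T o la ≤ 1 + τ :=
  (i2 _ _ _ _ ((h1 L C (Fin N) T h.1 h.2.1).1 o) _ _ h0 ht).2.trans (h.2.2 o ho)

theorem Inv.rc (h1 : U1) (h3 : UDL) (h4 : URC) (h5 : PR) (h : Inv T N (n + 1) t τ)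
    (hL : Fintype.card L ≤ n + 1) (hn : n + 1 ≤ N) (j : L) (a : ℕ) {t' τ' : ℝ} (h0 : 0 < τ')
    (ht0 : 1 ≤ t') (ht : t' * 2 ^ a ≤ t) :
    T.pr {z | ¬ Inv (T.rc j a z) N n t' τ'} ≤ (N + 1) ^ N * (τ / τ' + τ) := by
  have p2 : (1 : ℝ) ≤ 2 ^ a := one_le_pow₀ one_le_two
  have t1 : 1 ≤ t := le_trans (one_le_mul_of_one_le_of_one_le ht0 p2) ht
  have lv1 := h.lv_le h1 h3 hL hn one_pos t1
  have e1 : nar (fun c : Lv T => T.ty c) (fun _ => 1) (lv T) = lv T := Ir.nar_one
  rw [e1] at lv1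
  have n1 := (h1 L C (Fin N) T h.1 h.2.1).2
  have τ0 : 0 ≤ τ := by linarith [n1.1.one_le n1.2]
  obtain ⟨r1, r2⟩ := h4 L C (Fin N) T h.1 h.2.1 j a
  have k : ∀ o ∈ (univ : Finset (Fin N → Option L)),
      T.pr {z | act o ≤ n ∧ 1 + τ' < ir (T.rc j a z) o fun _ => t'} ≤ τ / τ' + τ := fun o _ => by
    by_cases ho : act o ≤ n
    swap
    · simp only [ho, false_and, Set.ofPred_false, TT.pr_empty]; positivity
    simp only [ho, true_and]
    obtain ⟨x, hx⟩ : ∃ x, o x = none := by
      by_contra e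
      rw [act, filter_true_of_mem (p := fun x => o x ≠ none) fun x _ k => e ⟨x, k⟩, card_univ,
        Fintype.card_fin] at ho
      omega
    obtain ⟨s1, s2⟩ := r2 o x hx fun _ => t'
    have ao : act (Function.update o x (some j)) ≤ n + 1 := by
      refine le_trans (card_le_card fun x' k => ?_)
        ((card_insert_le x _).trans (Nat.succ_le_succ ho))
      by_cases e : x' = x
      · exact e ▸ mem_insert_self _ _
      · exact mem_insert_of_mem (by simpa [Function.update_of_ne e] using k)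
    have l0 : ∀ x', 0 < Function.update (fun x' => t' * if o x' = some j then (2 : ℝ) ^ a else 1)
        x 1 x' := fun x' => by
      rw [Function.update_apply]; split_ifs <;> positivity
    have l1 : ∀ x', Function.update (fun x' => t' * if o x' = some j then (2 : ℝ) ^ a else 1)
        x 1 x' ≤ t := fun x' => by
      rw [Function.update_apply]; split_ifs
      exacts [t1, ht, le_trans (mul_le_mul_of_nonneg_left p2 (by positivity)) ht]
    have nd := (i2 _ _ _ _ ((h1 L C (Fin N) T h.1 h.2.1).1 (Function.update o x (some j))) _ _ l0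
      fun _ => le_rfl).1
    have m := (i4 _ _ _ _ nd x).1 τ' h0
    have b := h.le h1 ao l0 l1
    have s3 := s2 {z | 1 + τ' < ir (T.rc j a z) o fun _ => t'} fun z z' e k => by
      rw [Set.mem_ofPred_eq, s1] at k ⊢
      refine k.trans_eq (congrArg (fun z => irr (fx _ _ _ z)) (funext fun v => e _ ?_))
      have := v.1.2.2.1
      rw [show v.1.1.2 = {x} from v.2, image_singleton, Function.update_self,
        ← image_singleton] at this
      exact (image_injective (Option.some_injective _) this).symm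
    have inj : Function.Injective fun v : Pu (uty T (Function.update o x (some j))) x =>
        v.1.1.1 := fun v v' e => Subtype.ext (Subtype.ext (Prod.ext e (v.2.trans v'.2.symm)))
    rw [show {z | ∃ z' ∈ {z | 1 + τ' < ir (T.rc j a z) o fun _ => t'}, z = fun v => z' v.1.1.1} =
      {z | 1 + τ' < irr (fx _ x (nar _ (Function.update (fun x' => t' * if o x' = some j then
        (2 : ℝ) ^ a else 1) x 1) (U T (Function.update o x (some j)))) z)} from
      Set.ext fun z => ⟨fun ⟨z', k, e⟩ => by rw [Set.mem_ofPred_eq, s1] at k; exact e ▸ k,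
        fun k => ⟨Function.extend _ z 0, by
          rw [Set.mem_ofPred_eq, s1]
          exact k.trans_eq (congrArg (fun z => irr (fx _ _ _ z))
            (funext fun v => (inj.extend_apply z 0 v).symm)),
          funext fun v => (inj.extend_apply z 0 v).symm⟩⟩] at s3
    have c := (i4 _ _ _ _ n1 j).2 {z | ∃ z' ∈ {z | 1 + τ' < ir (T.rc j a z) o fun _ => t'},
      z = fun v => z' v.1.1}
    rw [← h5 L C T h.1, ← s3] at c
    refine (h.1.pr_mono fun z k => ?_).trans (c.trans (add_le_add (m.trans ?_) (by linarith)))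
    · exact ⟨z, k, rfl⟩
    · exact div_le_div_of_nonneg_right (by unfold ir at b; linarith) h0.le
  refine (h.1.pr_mono fun z k => ?_).trans ((h.1.pr_biUnion univ _).trans
    ((sum_le_card_nsmul _ _ _ k).trans ?_))
  · simp only [Set.mem_ofPred_eq, Inv, h.1.rc, r1 z, true_and, not_forall, not_le] at k
    obtain ⟨o, a, b⟩ := k
    exact Set.mem_iUnion₂.2 ⟨o, mem_univ _, a, b⟩
  · rw [nsmul_eq_mul, card_univ, Fintype.card_fun, Fintype.card_option, Fintype.card_fin]
    refine mul_le_mul_of_nonneg_right ?_ (by positivity)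
    exact_mod_cast Nat.pow_le_pow_left (by omega) N

theorem good (h1 : U1) (h2 : UCL) (h3 : UDL) (h4 : URC) (h5 : PR) (h6 : SMI) : GOOD := by
  intro N b g
  obtain ⟨κ, hκ⟩ : ∃ κ : ℝ, κ = 1 / 2 ^ (b + 5) / (N + 1) ^ N := ⟨_, rfl⟩
  have κ0 : 0 < κ := by rw [hκ]; positivity
  have N1 : (1 : ℝ) ≤ (N + 1) ^ N := one_le_pow₀ (by simp)
  have e : (N + 1) ^ N * κ * 32 = (1 / 2) ^ b := by rw [hκ, _root_.one_div_pow, pow_add]; field_simp; ring
  have b1 : (1 / 2 : ℝ) ^ b ≤ 1 := pow_le_one₀ (by norm_num) (by norm_num)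
  have κ2 : κ ≤ (N + 1) ^ N * κ := le_mul_of_one_le_left κ0.le N1
  have κg : ∀ g, κ ^ (g + 1) ≤ κ := fun g => pow_le_of_le_one κ0.le (by linarith) g.succ_ne_zero
  have p2 : ∀ {a c : ℕ}, a ≤ c → (2 : ℝ) ^ a ≤ 2 ^ c := fun h => pow_le_pow_right₀ one_le_two h
  rw [← hκ]
  have sm : ∀ (g n : ℕ) (L C : Type) [Fintype L] [DecidableEq L] [Fintype C] [DecidableEq C]
      (T : TT L C), Fintype.card L + 9 * g ≤ n → n ≤ N →
      Inv T N n (2 ^ (b * (g + 1))) (κ ^ (g + 1)) → T.SM b := fun g n L C _ _ _ _ T a c h => by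
    refine h6 L C T h.1 h.2.1 b ?_
    have := h.lv_le h1 h3 (by omega) c (t' := 2 ^ b) (by positivity)
      (p2 (Nat.le_mul_of_pos_right _ g.succ_pos))
    linarith [κg g]
  induction g with
  | zero => exact fun n L C _ _ _ _ T a c h => ⟨h.1, sm 0 n L C T a c h⟩
  | succ g ih =>
    intro n L C _ _ _ _ T a c h
    have κl : κ ^ (g + 1 + 1) ≤ κ ^ (g + 1) :=
      pow_le_pow_of_le_one κ0.le (by linarith) (Nat.le_succ _)
    refine ⟨h.1, sm _ n L C T a c h, fun j r pt α hr hα => ?_, fun ℓ => ?_, fun j α hα => ?_⟩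
    · obtain ⟨u, v⟩ := h2 L C (Fin N) T h.1 h.2.1 j r pt α
      refine ih n _ _ _ (by simp; omega) c ⟨h.1.cl _ _ _, u, fun o ho => ?_⟩
      rw [v]
      refine (h.le h1 (by simpa [act] using ho) (fun x => ?_) fun x => ?_).trans (by linarith)
      · rcases o x with _ | i | i <;> simp
      · rw [mul_add b (g + 1), pow_add]
        refine mul_le_mul_of_nonneg_left ?_ (by positivity)
        rcases o x with _ | i | i
        exacts [one_le_pow₀ one_le_two, one_le_pow₀ one_le_two, p2 (by simpa using hα i)]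
    · obtain ⟨u, v⟩ := (h3 L C (Fin N) T h.1 h.2.1).1 ℓ
      refine ih n _ _ _ (by omega) c ⟨h.1.del ℓ, u, fun o ho => ?_⟩
      rw [v]
      refine (h.le h1 (le_trans (card_le_card fun x k => ?_) ho) (fun x => by positivity)
        fun x => p2 (Nat.mul_le_mul_left _ (Nat.le_succ _))).trans (by linarith)
      simp only [mem_filter, mem_univ, true_and] at k ⊢
      exact fun e => k (by simp [e])
    · obtain ⟨n, rfl⟩ : ∃ m, n = m + 1 := ⟨n - 1, by omega⟩
      refine le_trans (h.1.pr_mono fun z k => ?_) ((h.rc h1 h3 h4 h5 (by omega) c j α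
        (t' := 2 ^ (b * (g + 1))) (pow_pos κ0 (g + 1)) (one_le_pow₀ one_le_two) ?_).trans ?_)
      · exact fun i => k (ih n _ _ _ (by omega) (by omega) i)
      · rw [← pow_add]
        exact p2 (by rw [mul_add b (g + 1)]; omega)
      · rw [pow_succ κ (g + 1), mul_div_cancel_left₀ _ (pow_pos κ0 _).ne', mul_add, ← pow_succ]
        have := mul_le_mul_of_nonneg_left (κg (g + 1)) (zero_le_one.trans N1)
        nlinarith

end Crest.Agent.N49.Gd

end
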