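import Crest.Agent.N49.Gd.Fin
import Crest.Agent.N49.Rm.Hk

/-!
# Row 49 (helper89): `irr` small implies `GX` for the hook "the invariant holds"
-/

set_option autoImplicit false
set_option linter.unusedSectionVars false

open Finset Matrix

noncomputable section

namespace Crest.Agent.N49.Gd

open Rm Ir

/-- the loss of one recentring -/
def kap (N b : ℕ) : ℝ := 1 / 2 ^ (b + 5) / (N + 1) ^ N

theorem kap_pos (N b : ℕ) : 0 < kap N b := by unfold kap; positivity

variable {L C : Type} [Fintype L] [DecidableEq L] [Fintype C] [DecidableEq C] {T : TT L C}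
  {N n : ℕ} {t τ : ℝ}

theorem Inv.mono (h : Inv T N n t τ) {n' : ℕ} {t' τ' : ℝ} (a : n' ≤ n) (h0 : 0 < t') (b : t' ≤ t)
    (c : τ ≤ τ') : Inv T N n' t' τ' :=
  ⟨h.1, h.2.1, fun _ ho => (h.le u1 (ho.trans a) (fun _ => h0) fun _ => b).trans (by linarith)⟩

/-- the hook: the invariant after `k` recentrings -/
def hk (L C : Type) [Fintype L] [DecidableEq L] (N b n : ℕ) (t τ : ℝ) : Hk L C :=
  fun _ _ _ T' _ k => Inv T' N (n - k) (t / 2 ^ (b * k)) (τ / kap N b ^ k)

theorem hk_push {C1 : Type} (b : ℕ) (ι : (C1 ⊕ L → ℝ) → (C ⊕ L → ℝ)) (k : ℕ) :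
    (hk L C N b n t τ).push ι k = hk L C1 N b (n - k) (t / 2 ^ (b * k)) (τ / kap N b ^ k) := by
  funext C' _ _ T' ι' k'
  simp only [hk, Hk.push, Nat.sub_sub, mul_add, pow_add, div_div]

/-- **the invariant implies `GX`** -/
theorem goodx (N b : ℕ) : ∀ (g n : ℕ) (t τ : ℝ) (C : Type) [Fintype C] [DecidableEq C] (T : TT L C),
    Fintype.card L + 9 * g ≤ n → n ≤ N → 2 ^ (b * (g + 1)) ≤ t → 0 < τ → τ ≤ kap N b ^ (g + 1) →
    Inv T N n t τ → GX b g C T (hk L C N b n t τ) := by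
  have κ0 := kap_pos N b
  have N1 : (1 : ℝ) ≤ (N + 1) ^ N := one_le_pow₀ (by simp)
  have e : (N + 1) ^ N * kap N b * 32 = (1 / 2) ^ b := by
    rw [kap, _root_.one_div_pow, pow_add]; field_simp; ring
  have b1 : (1 / 2 : ℝ) ^ b ≤ 1 := pow_le_one₀ (by norm_num) (by norm_num)
  have κ2 : kap N b ≤ (N + 1) ^ N * kap N b := le_mul_of_one_le_left κ0.le N1
  have k : ∀ (g n : ℕ) (t τ : ℝ) (C : Type) [Fintype C] [DecidableEq C] (T : TT L C),
      Fintype.card L + 9 * g ≤ n → n ≤ N → 2 ^ (b * (g + 1)) ≤ t → τ ≤ kap N b ^ (g + 1) →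
      Inv T N n t τ → Good b g L C T ∧ hk L C N b n t τ C T id 0 :=
    fun g n t τ C _ _ T a c d f h =>
      ⟨goodT N b g n L C T a c (h.mono le_rfl (by positivity) d f), by simpa [hk] using h⟩
  intro g
  induction g with
  | zero => exact fun n t τ C _ _ T a c d _ f h => k 0 n t τ C T a c d f h
  | succ g ih =>
    intro n t τ C _ _ T a c d τ0 f h
    refine ⟨(k _ n t τ C T a c d f h).1, (k _ n t τ C T a c d f h).2, fun j α q hα _ _ => ?_⟩
    obtain ⟨n, rfl⟩ : ∃ m, n = m + 1 := ⟨n - 1, by omega⟩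
    have d' : (2 : ℝ) ^ (b * (g + 1)) ≤ t / 2 ^ b := by
      rwa [le_div_iff₀ (by positivity), ← pow_add, ← Nat.mul_succ]
    refine le_trans (h.1.pr_mono fun z m => ?_) ((h.rc u1 udl (urc i1) pr (by omega) c j α
      (t' := t / 2 ^ b) (div_pos τ0 κ0) ((one_le_pow₀ one_le_two).trans d') ?_).trans ?_)
    · refine fun i => m ?_
      rw [hk_push, mul_one, pow_one, Nat.add_sub_cancel]
      exact ih n _ _ _ _ (by omega) (by omega) d' (div_pos τ0 κ0)
        (by rwa [div_le_iff₀ κ0, ← pow_succ]) i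
    · exact (mul_le_mul_of_nonneg_left (pow_le_pow_right₀ one_le_two hα)
        ((by positivity : (0 : ℝ) ≤ _).trans d')).trans_eq (div_mul_cancel₀ _ (by positivity))
    · rw [div_div_cancel₀ τ0.ne']
      have := f.trans (pow_le_of_le_one κ0.le (by linarith) (g + 1).succ_ne_zero)
      nlinarith

/-- the form consumed by the block of the relative multi-homomorphism theorem -/
theorem ggx {b : ℕ} (a : Fintype.card L + 9 * b ≤ n) (c : n ≤ N) (d : 2 ^ (b * (b + 1)) ≤ t)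
    (h0 : 0 < τ) (f : τ ≤ kap N b ^ (b + 1)) (h : Inv T N n t τ) : GG b T (hk L C N b n t τ) :=
  goodx N b b n t τ C T a c d h0 f h

end Crest.Agent.N49.Gd

end
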