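import Crest.Agent.N49.Gd.St
import Crest.Agent.N49.Ir.Fix

/-!
# Row 49 (helper89): the leaves `I2` (narrowing) and `I4` (fixing a letter)
-/

set_option autoImplicit false

noncomputable section

namespace Crest.Agent.N49.Gd

open Ir

theorem i2 : I2 := fun _ _ _ _ _ ty _ h la _ a b =>
  ⟨⟨h.1.nar la, det_nar_ne (ty := ty) h.2 fun i => (a i).ne'⟩, h.1.nar_mono h.2 a b⟩

theorem ind_eq {X : Type} (H : Set X) (w : X → ℝ) (y : X) :
    H.indicator w y = w y * H.indicator 1 y := by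
  by_cases a : y ∈ H <;> simp [a]

theorem ind_nn {X : Type} (H : Set X) (y : X) : (0 : ℝ) ≤ H.indicator 1 y := by
  by_cases a : y ∈ H <;> simp [a]

theorem ind_le {X : Type} (H : Set X) (y : X) : H.indicator 1 y ≤ (1 : ℝ) := by
  by_cases a : y ∈ H <;> simp [a]

theorem i4 : I4 := by
  intro L V _ _ _ ty Φ h x
  have E := h.1.emb_pu x
  have z : 0 < ZZ (Ir.pu ty Φ x) := (E.tyd h.1).ZZ_pos (E.det h.1 h.2)
  have t : irr Φ ≤ 1 + (irr Φ - 1) := by linarith
  refine ⟨fun τ h' => ?_, fun H => ?_⟩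
  · simp only [pb, ind_eq _ (wt _)]
    exact (div_le_iff₀ z).2 (h.1.markov h.2 x t h' (ind_nn _) (ind_le _) fun u a =>
      Set.indicator_of_notMem (s := {z | 1 + τ < irr (fx ty x Φ z)}) (not_lt.2 a) _)
  · have p : 0 ≤ pb (pu ty x Φ) H :=
      div_nonneg (tsum_nonneg fun y => Set.indicator_nonneg (fun _ _ => (wt_pos _ _).le) _) z.le
    have a := h.1.marg_pu h.2 x t p (ind_nn H) (ind_le H) (by
      simp only [pb, ind_eq _ (wt _)]
      exact (div_mul_cancel₀ _ z.ne').ge)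
    rw [add_comm, pb, div_le_iff₀ (h.1.ZZ_pos h.2)]
    simp only [ind_eq _ (wt Φ)]
    exact a

end Crest.Agent.N49.Gd

end
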