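import Crest.Agent.N49.Gd.Defs

/-!
# Row 49 (helper2): the leaves of `irr` small implies `Good`
-/

set_option autoImplicit false

open Finset Matrix

noncomputable section

namespace Crest.Agent.N49.Gd

open Rm Ir

/-- relabelling -/
def I1 : Prop := ∀ (V V' : Type) [Fintype V] [DecidableEq V] [Fintype V'] [DecidableEq V']
  (Φ : (V → ℝ) → V → ℝ) (Φ' : (V' → ℝ) → V' → ℝ) (f : V' → V), Function.Bijective f →
  (∀ y v, Φ' (y ∘ f) v = Φ y (f v)) → irr Φ' = irr Φ ∧ (lp Φ').det = (lp Φ).det ∧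
    ∀ H : Set (V' → ℤ), pb Φ' H = pb Φ {y | y ∘ f ∈ H}

/-- narrowing -/
def I2 : Prop := ∀ (L V : Type) [DecidableEq L] [Fintype V] [DecidableEq V] (ty : V → Finset L)
  (Φ : (V → ℝ) → V → ℝ), Nd ty Φ → ∀ la la' : L → ℝ, (∀ i, 0 < la i) → (∀ i, la i ≤ la' i) →
  Nd ty (nar ty la Φ) ∧ irr (nar ty la Φ) ≤ irr (nar ty la' Φ)

/-- fixing a letter: Markov for the law of the pure words, and the marginal on the pure words -/
def I4 : Prop := ∀ (L V : Type) [DecidableEq L] [Fintype V] [DecidableEq V] (ty : V → Finset L)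
  (Φ : (V → ℝ) → V → ℝ), Nd ty Φ → ∀ x : L,
  (∀ τ : ℝ, 0 < τ → pb (pu ty x Φ) {z | 1 + τ < irr (fx ty x Φ z)} ≤ (irr Φ - 1) / τ) ∧
  ∀ H : Set (Pu ty x → ℤ), pb Φ {y | (fun v => y v.1) ∈ H} ≤ pb (pu ty x Φ) H + (irr Φ - 1)

/-- short dual vectors of the fibres are rare -/
def I5 : Prop := ∀ (L V : Type) [DecidableEq L] [Fintype V] [DecidableEq V] (ty : V → Finset L)
  (Φ : (V → ℝ) → V → ℝ), Nd ty Φ → ∀ (i : L) (t : ℝ), 1 ≤ t → ∀ H : Set (Out ty i → ℤ),
  (∀ r ∈ H, ∃ k : In ty i → ℤ, k ≠ 0 ∧ ∀ u : In ty i → ℝ,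
    (∀ v : In ty i, |Φ (jn (Po.zc r) u) v| ≤ 1) → |Po.zc k ⬝ᵥ u| ≤ t) →
  pb (del ty Φ i) H ≤ 13 * (irr (nar ty (fun _ => t) Φ) - 1) ∧
    pb Φ {y | (fun v => y v.1) ∈ H} ≤ 13 * (irr (nar ty (fun _ => t) Φ) - 1)

/-- the clone system and the live part are typed systems -/
def U1 : Prop := ∀ (L C L' : Type) [Fintype L] [DecidableEq L] [Fintype C] [DecidableEq C]
  [Fintype L'] [DecidableEq L'] (T : TT L C), T.Ok → Hm T →
  (∀ o : L' → Option L, Nd (uty T o) (U T o)) ∧ Nd (fun c : Lv T => T.ty c) (lv T)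

/-- clones of clones -/
def UCL : Prop := ∀ (L C L' : Type) [Fintype L] [DecidableEq L] [Fintype C] [DecidableEq C]
  [Fintype L'] [DecidableEq L'] (T : TT L C), T.Ok → Hm T → ∀ (j : L) (r : ℕ) (pt : Fin r → Bool)
  (a : Fin r → ℕ), Hm (T.cl j pt a) ∧ ∀ (o : L' → Option (L ⊕ Fin r)) (la : L' → ℝ),
  ir (T.cl j pt a) o la = ir T (fun x => (o x).map (Sum.elim id fun _ => j))
    fun x => la x * (o x).elim 1 (Sum.elim (fun _ => 1) fun i => 2 ^ a i)

/-- deleting a letter; one clone of every letter -/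
def UDL : Prop := ∀ (L C L' : Type) [Fintype L] [DecidableEq L] [Fintype C] [DecidableEq C]
  [Fintype L'] [DecidableEq L'] (T : TT L C), T.Ok → Hm T →
  (∀ ℓ : L, Hm (T.del ℓ) ∧ ∀ (o : L' → Option L) (la : L' → ℝ),
    ir (T.del ℓ) o la = ir T (fun x => if o x = some ℓ then none else o x) la) ∧
  ∀ (f : L ↪ L') (o : L' → Option L), (∀ x ℓ, o x = some ℓ ↔ x = f ℓ) → ∀ t : ℝ,
    ir T o (fun _ => t) = irr (nar (fun c : Lv T => T.ty c) (fun _ => t) (lv T))

/-- recentring is fixing one more clone -/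
def URC : Prop := ∀ (L C L' : Type) [Fintype L] [DecidableEq L] [Fintype C] [DecidableEq C]
  [Fintype L'] [DecidableEq L'] (T : TT L C), T.Ok → Hm T → ∀ (j : L) (a : ℕ),
  (∀ z, Hm (T.rc j a z)) ∧ ∀ (o : L' → Option L) (x : L'), o x = none → ∀ (la : L' → ℝ),
  (∀ z : C → ℤ, ir (T.rc j a z) o la =
    irr (fx (uty T (Function.update o x (some j))) x (nar (uty T (Function.update o x (some j)))
      (Function.update (fun x' => la x' * if o x' = some j then 2 ^ a else 1) x 1)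
      (U T (Function.update o x (some j)))) fun v => z v.1.1.1)) ∧
  ∀ H : Set (C → ℤ), (∀ z z' : C → ℤ, (∀ c, T.ty c = {j} → z c = z' c) → z ∈ H → z' ∈ H) →
    pb (pu (uty T (Function.update o x (some j))) x (nar (uty T (Function.update o x (some j)))
      (Function.update (fun x' => la x' * if o x' = some j then 2 ^ a else 1) x 1)
      (U T (Function.update o x (some j))))) {z | ∃ z' ∈ H, z = fun v => z' v.1.1.1} =
    pb (pu (fun c : Lv T => T.ty c) j (lv T)) {z | ∃ z' ∈ H, z = fun v => z' v.1.1}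

/-- the dead coordinates are independent noise -/
def PR : Prop := ∀ (L C : Type) [Fintype L] [DecidableEq L] [Fintype C] [DecidableEq C]
  (T : TT L C), T.Ok → ∀ H : Set (Lv T → ℤ), T.pr {y | (fun c => y c.1) ∈ H} = pb (lv T) H

/-- smooth fibres -/
def SMI : Prop := ∀ (L C : Type) [Fintype L] [DecidableEq L] [Fintype C] [DecidableEq C]
  (T : TT L C), T.Ok → Hm T → ∀ b : ℕ,
  13 * (irr (nar (fun c : Lv T => T.ty c) (fun _ => 2 ^ b) (lv T)) - 1) ≤ (1 / 2) ^ b → T.SM b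

/-- **the result of the block** -/
def GOOD : Prop := ∀ (N b g n : ℕ) (L C : Type) [Fintype L] [DecidableEq L] [Fintype C]
  [DecidableEq C] (T : TT L C), Fintype.card L + 9 * g ≤ n → n ≤ N →
  Inv T N n (2 ^ (b * (g + 1))) ((1 / 2 ^ (b + 5) / (N + 1) ^ N) ^ (g + 1)) → Good b g L C T

end Crest.Agent.N49.Gd

end
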